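import Mathlib

/-! Fisher-information route to the Courtade-Kumar inequality at low noise: common definitions.
Everything is in nats.  The real-variable data are parametrised by the correlation `ρ ∈ (0,1)`. -/

namespace Vale.Agent.Lib.P322x

open Finset

/-- Binary entropy in nats. -/
noncomputable def hn (x : ℝ) : ℝ := Real.negMulLog x + Real.negMulLog (1 - x)

/-- Log-odds. -/
noncomputable def logit (x : ℝ) : ℝ := Real.log x - Real.log (1 - x)

/-- The edge energy `¼ (u-v)(logit u - logit v)`. -/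
noncomputable def kap (u v : ℝ) : ℝ := (u - v) * (logit u - logit v) / 4

/-- `W = atanh ρ`, half of the log-odds of `(1+ρ)/2`. -/
noncomputable def Wr (ρ : ℝ) : ℝ := (Real.log (1 + ρ) - Real.log (1 - ρ)) / 2

/-- The entropy at crossover `(1-ρ)/2`. -/
noncomputable def etaR (ρ : ℝ) : ℝ := hn ((1 - ρ) / 2)

/-- `C = log (2 cosh W) = η + ρ W`. -/
noncomputable def CR (ρ : ℝ) : ℝ := etaR ρ + ρ * Wr ρ

/-- The slope `b = 1 + ρ / ((1-ρ²) W)` of the tangent of `Θ` at `η(ρ)`. -/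
noncomputable def bR (ρ : ℝ) : ℝ := 1 + ρ / ((1 - ρ ^ 2) * Wr ρ)

/-- The intercept `A = ρ W + b η` of the tangent of `Θ` at `η(ρ)`. -/
noncomputable def AR (ρ : ℝ) : ℝ := ρ * Wr ρ + bR ρ * etaR ρ

/-- The multiplier `λ = ρ² / (2 (1-ρ²) C)` of Lemma K. -/
noncomputable def lamR (ρ : ℝ) : ℝ := ρ ^ 2 / (2 * (1 - ρ ^ 2) * CR ρ)

/-- The slope `β = W + ρ η / ((1-ρ²) C)` of Lemma K. -/
noncomputable def betaR (ρ : ℝ) : ℝ := Wr ρ + ρ * etaR ρ / ((1 - ρ ^ 2) * CR ρ)

/-- The weight `ξ(D) = (1-D²)(1 + (3/10) D⁴)` of the tangent lines. -/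
noncomputable def xiG (D : ℝ) : ℝ := (1 - D ^ 2) * (1 + 3 / 10 * D ^ 4)

/-- The correlation at the low-noise end of the known range: crossover `9/400`. -/
noncomputable def rho1 : ℝ := 191 / 200

variable {n : ℕ}

/-- Cube average. -/
noncomputable def avg (g : (Fin n → Bool) → ℝ) : ℝ := (∑ x, g x) / 2 ^ n

/-- Flip of coordinate `i`. -/
def flip (i : Fin n) (x : Fin n → Bool) : Fin n → Bool := Function.update x i (!x i)

/-- The Fisher information of `a` along the heat flow: `Σ_i E kap(a x, a (flip i x))`. -/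
noncomputable def fI (a : (Fin n → Bool) → ℝ) : ℝ :=
  ∑ i, avg (fun x => kap (a x) (a (flip i x)))

/-- The mean entropy of `a`. -/
noncomputable def eH (a : (Fin n → Bool) → ℝ) : ℝ := avg (fun x => hn (a x))

/-- The function is strictly between `0` and `1`. -/
def Inside (a : (Fin n → Bool) → ℝ) : Prop := ∀ x, 0 < a x ∧ a x < 1

/-- The family of lower bounds for the Fisher information: the line with parameter `ρ`. -/
def LineAt (ρ : ℝ) : Prop :=
  ∀ (n : ℕ) (a : (Fin n → Bool) → ℝ), Inside a →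
    AR ρ * xiG (2 * avg a - 1) - bR ρ * eH a ≤ fI a

/-- The two-point inequality behind the induction on the dimension.  The numbers `F₀, F₁` stand for the
Fisher informations of the two restrictions, `H₀, H₁` for their mean entropies, `m₀, m₁` for their
means, `K` for the mean edge energy between the restrictions. -/
def Bellman : Prop :=
  ∀ (ρ : ℝ), rho1 ≤ ρ → ρ < 1 →
  ∀ (m₀ m₁ H₀ H₁ F₀ F₁ K : ℝ),
    0 < m₀ → m₀ < 1 → 0 < m₁ → m₁ < 1 →
    0 < H₀ → H₀ ≤ hn m₀ → 0 < H₁ → H₁ ≤ hn m₁ →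
    -- the two children satisfy the modified log-Sobolev bound
    2 * (hn m₀ - H₀) ≤ F₀ → 2 * (hn m₁ - H₁) ≤ F₁ →
    -- the two children satisfy all lines
    (∀ r, rho1 ≤ r → r < 1 → AR r * xiG (2 * m₀ - 1) - bR r * H₀ ≤ F₀) →
    (∀ r, rho1 ≤ r → r < 1 → AR r * xiG (2 * m₁ - 1) - bR r * H₁ ≤ F₁) →
    -- the two bounds on the edge energy: Jensen and Lemma K
    kap m₀ m₁ ≤ K →
    (∀ r, 0 < r → r < 1 → betaR r * |m₀ - m₁| - lamR r * (H₀ + H₁) ≤ K) →
    AR ρ * xiG (m₀ + m₁ - 1) - bR ρ * ((H₀ + H₁) / 2) ≤ (F₀ + F₁) / 2 + K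

end Vale.Agent.Lib.P322x
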