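import Vale.Agent.Lib.P322x.Final
import Vale.Agent.Lib.P322x.Defs

/-! Dictionary between the two conventions (values in `(-1,1)` and values in `(0,1)`), and the
reduction of the full inequality to the two-point inequality `Bellman`. -/

set_option linter.unusedVariables false
set_option linter.unusedSectionVars false

namespace Vale.Agent.Lib.P322x

open Finset Vale.Agent.Lib.P311 Vale.Agent.Lib.P322

lemma hn_half_add {t : ℝ} (h1 : -1 < t) (h2 : t < 1) : hn ((1 + t) / 2) = dfc t := by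
  unfold hn dfc Psi Real.negMulLog
  have e : (1 : ℝ) - (1 + t) / 2 = (1 - t) / 2 := by ring
  rw [e, Real.log_div (by linarith) (by norm_num), Real.log_div (by linarith) (by norm_num)]
  ring

lemma hn_symm_b (x : ℝ) : hn (1 - x) = hn x := by
  unfold hn
  rw [sub_sub_cancel, add_comm]

lemma Wr_eq_psi (ρ : ℝ) : Wr ρ = psi ρ := rfl

lemma etaR_eq {ρ : ℝ} (h1 : -1 < ρ) (h2 : ρ < 1) : etaR ρ = dfc ρ := by
  unfold etaR
  rw [← hn_half_add h1 h2, ← hn_symm_b]
  congr 1; ring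

lemma logit_half_add {t : ℝ} (h1 : -1 < t) (h2 : t < 1) : logit ((1 + t) / 2) = 2 * psi t := by
  unfold logit psi
  have e : (1 : ℝ) - (1 + t) / 2 = (1 - t) / 2 := by ring
  rw [e, Real.log_div (by linarith) (by norm_num), Real.log_div (by linarith) (by norm_num)]
  ring

lemma kap_half_add {s t : ℝ} (hs : |s| < 1) (ht : |t| < 1) :
    kap ((1 + s) / 2) ((1 + t) / 2) = cst s t := by
  unfold kap cst
  rw [logit_half_add (abs_lt.mp hs).1 (abs_lt.mp hs).2, logit_half_add (abs_lt.mp ht).1 (abs_lt.mp ht).2]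
  ring

lemma avg_eq_mean {n : ℕ} (u : (Fin n → Bool) → ℝ) : avg u = mean u := rfl

lemma flip_eq_flp {n : ℕ} (i : Fin n) (x : Fin n → Bool) : flip i x = flp x i := rfl

/-- The function with values in `(-1, 1)` attached to `a`. -/
noncomputable def sgn {n : ℕ} (a : (Fin n → Bool) → ℝ) (x : Fin n → Bool) : ℝ := 2 * a x - 1

lemma half_sgn {n : ℕ} (a : (Fin n → Bool) → ℝ) (x : Fin n → Bool) : (1 + sgn a x) / 2 = a x := by
  unfold sgn; ring

lemma abs_sgn {n : ℕ} {a : (Fin n → Bool) → ℝ} (h : Inside a) (x : Fin n → Bool) : |sgn a x| < 1 := by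
  unfold sgn
  rw [abs_lt]
  constructor <;> linarith [(h x).1, (h x).2]

lemma mean_sgn {n : ℕ} (a : (Fin n → Bool) → ℝ) : mean (sgn a) = 2 * avg a - 1 := by
  rw [avg_eq_mean]
  unfold sgn
  have : ∀ x, 2 * a x - 1 = 2 * a x + (-1) := fun x => by ring
  rw [mean_congr this, mean_add, mean_mul_left, mean_const]
  ring

lemma eH_eq {n : ℕ} {a : (Fin n → Bool) → ℝ} (h : Inside a) :
    eH a = mean (fun x => dfc (sgn a x)) := by
  unfold eH
  rw [avg_eq_mean]
  apply mean_congr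
  intro x
  have hs := abs_lt.mp (abs_sgn h x)
  rw [← hn_half_add hs.1 hs.2, half_sgn]

lemma fI_eq {n : ℕ} {a : (Fin n → Bool) → ℝ} (h : Inside a) : fI a = energy (sgn a) := by
  unfold fI energy
  apply Finset.sum_congr rfl
  intro i _
  rw [avg_eq_mean]
  apply mean_congr
  intro x
  rw [flip_eq_flp, ← kap_half_add (abs_sgn h x) (abs_sgn h _), half_sgn, half_sgn]

/-- Inside, from values in `(-1, 1)`. -/
lemma inside_half {n : ℕ} {g : (Fin n → Bool) → ℝ} (h : ∀ x, |g x| < 1) :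
    Inside (fun x => (1 + g x) / 2) := by
  intro x
  have := abs_lt.mp (h x)
  constructor <;> linarith

lemma sgn_half {n : ℕ} (g : (Fin n → Bool) → ℝ) : sgn (fun x => (1 + g x) / 2) = g := by
  funext x
  unfold sgn
  ring

lemma Wr_pos {s : ℝ} (h0 : 0 < s) (h1 : s < 1) : 0 < Wr s := by
  unfold Wr
  have : Real.log (1 - s) < Real.log (1 + s) :=
    Real.log_lt_log (by linarith) (by linarith)
  linarith

lemma bR_pos {s : ℝ} (h0 : 0 < s) (h1 : s < 1) : 0 < bR s := by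
  unfold bR
  have h2 : 0 < 1 - s ^ 2 := by nlinarith
  have := Wr_pos h0 h1
  positivity

lemma AR_eq {s : ℝ} (h0 : 0 < s) (h1 : s < 1) : AR s = s * psi s + bR s * dfc s := by
  unfold AR
  rw [etaR_eq (by linarith) h1, Wr_eq_psi]

/-- `Psi t ≥ t² / 2`. -/
lemma half_sq_le_Psi {t : ℝ} (h : |t| ≤ 1) : t ^ 2 / 2 ≤ Psi t := by
  have hs := hasSum_Psi h
  have := le_hasSum hs 0 (fun k _ => by
    have h2 : 0 ≤ t ^ (2 * k + 2) := by
      have : t ^ (2 * k + 2) = (t ^ (k + 1)) ^ 2 := by ring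
      rw [this]; positivity
    exact mul_nonneg (ee_nonneg k) h2)
  unfold ee at this
  norm_num at this
  linarith

lemma rho1_pos : (0 : ℝ) < rho1 := by unfold rho1; norm_num

lemma dfc_le_half {ρ : ℝ} (h0 : 191 / 200 ≤ ρ) (h1 : ρ < 1) : dfc ρ ≤ 1 / 2 := by
  unfold dfc
  have h := half_sq_le_Psi (t := ρ) (by rw [abs_of_pos (by linarith)]; exact h1.le)
  have hl := Real.log_two_lt_d9
  nlinarith

lemma dfc_nonneg {t : ℝ} (h : |t| ≤ 1) : 0 ≤ dfc t := by
  unfold dfc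
  linarith [Psi_abs_le h]

lemma xi_defect {μ ρ : ℝ} (hμ : |μ| < 1 / 5) (h0 : 191 / 200 ≤ ρ) (h1 : ρ < 1) :
    (1 - xiG μ) * dfc ρ ≤ Psi μ := by
  have hP := half_sq_le_Psi (t := μ) (by linarith)
  have hd := dfc_le_half h0 h1
  have hd0 := dfc_nonneg (t := ρ) (by rw [abs_of_pos (by linarith)]; exact h1.le)
  have hm2 : μ ^ 2 ≤ 1 / 25 := by
    have := abs_lt.mp hμ
    nlinarith
  have hm0 : 0 ≤ μ ^ 2 := sq_nonneg μ
  have hx : 1 - xiG μ ≤ μ ^ 2 := by
    unfold xiG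
    have h4 : μ ^ 4 = μ ^ 2 * μ ^ 2 := by ring
    have h6 : 0 ≤ μ ^ 4 := by positivity
    nlinarith [mul_nonneg h6 (by linarith : 0 ≤ 1 - μ ^ 2)]
  have h3 : (1 - xiG μ) * dfc ρ ≤ μ ^ 2 * dfc ρ := mul_le_mul_of_nonneg_right hx hd0
  nlinarith

/-- The full inequality from the family of lines. -/
theorem ck_of_lines (hL : ∀ ρ, rho1 ≤ ρ → ρ < 1 → LineAt ρ) {n : ℕ}
    (f : (Fin n → Bool) → Bool) {ε : ℝ} (h0 : 0 ≤ ε) (h1 : ε ≤ 1 / 2) :
    mutualInfo f ε ≤ 1 - h2 ε := by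
  refine ck_of_energy xiG (R₀ := 191 / 200) (by norm_num) le_rfl ?_ ?_ f h0 h1
  · intro n g hg s hs0 hs1 hlt
    have hs0' : 0 < s := by linarith
    have hline := hL s (by unfold rho1; exact hs0) hs1 n (fun x => (1 + g x) / 2) (inside_half hg)
    rw [eH_eq (inside_half hg), fI_eq (inside_half hg), sgn_half, AR_eq hs0' hs1] at hline
    have e2 : 2 * avg (fun x => (1 + g x) / 2) - 1 = mean g := by
      rw [← mean_sgn, sgn_half]
    rw [e2] at hline
    have hb := bR_pos hs0' hs1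
    nlinarith [mul_nonneg hb.le (sub_nonneg.mpr hlt.le)]
  · intro μ ρ hμ hρ0 hρ1
    exact xi_defect hμ hρ0 hρ1

end Vale.Agent.Lib.P322x
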