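import Vale.Agent.Lib.P322x.LemmaK

/-! The two-point modified log-Sobolev inequality and the concavity of the entropy. -/

namespace Vale.Agent.Lib.P322x

open Real

/-- The derivative of the auxiliary function `Tf`. -/
noncomputable def Tf1 (r : ℝ) : ℝ := log (r + 1) - log 2 - 3 / 4 * log r + (1 / 4 - 1 / (4 * r))

/-- The auxiliary function of the two-point inequality. -/
noncomputable def Tf (r : ℝ) : ℝ := (r - 1) * log r / 4 - r * log r + (r + 1) * (log (r + 1) - log 2)

lemma hasDerivAt_Tf1 {r : ℝ} (hr : 0 < r) :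
    HasDerivAt Tf1 ((r - 1) ^ 2 / (4 * r ^ 2 * (r + 1))) r := by
  have h1 : HasDerivAt (fun x : ℝ => log (x + 1)) (1 / (r + 1)) r := by
    have := ((hasDerivAt_id r).add_const (1 : ℝ)).log (by simp only [id]; positivity)
    simpa using this
  have h2 : HasDerivAt (fun x : ℝ => log x) (1 / r) r := by
    simpa using hasDerivAt_log hr.ne'
  have h3 : HasDerivAt (fun x : ℝ => 1 / (4 * x)) (-(1 / (4 * r ^ 2))) r := by
    have e : (fun x : ℝ => 1 / (4 * x)) = fun x => (1 / 4) * x⁻¹ := by
      funext x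
      rw [one_div, mul_inv]
      norm_num
    rw [e]
    have h4 := (hasDerivAt_inv hr.ne').const_mul ((1 : ℝ) / 4)
    have e2 : -(1 / (4 * r ^ 2)) = (1 : ℝ) / 4 * -(r ^ 2)⁻¹ := by
      field_simp
    rw [e2]
    exact h4
  have h : HasDerivAt Tf1 _ r :=
    ((h1.sub_const (log 2)).sub (h2.const_mul (3 / 4))).add (h3.const_sub (1 / 4))
  convert h using 1
  field_simp
  ring

lemma Tf1_one : Tf1 1 = 0 := by
  unfold Tf1
  norm_num

lemma Tf1_nonneg {r : ℝ} (hr : 1 ≤ r) : 0 ≤ Tf1 r := by
  have hm : MonotoneOn Tf1 (Set.Ici 1) := by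
    apply monotoneOn_of_deriv_nonneg (convex_Ici 1)
    · exact fun x hx => (hasDerivAt_Tf1 (lt_of_lt_of_le one_pos hx)).continuousAt.continuousWithinAt
    · intro x hx
      rw [interior_Ici] at hx
      exact (hasDerivAt_Tf1 (lt_trans one_pos hx)).differentiableAt.differentiableWithinAt
    · intro x hx
      rw [interior_Ici] at hx
      have hx' : 1 < x := hx
      rw [(hasDerivAt_Tf1 (lt_trans one_pos hx')).deriv]
      positivity
  have := hm (Set.mem_Ici.mpr le_rfl) (Set.mem_Ici.mpr hr) hr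
  rwa [Tf1_one] at this

lemma hasDerivAt_Tf {r : ℝ} (hr : 0 < r) : HasDerivAt Tf (Tf1 r) r := by
  have h1 : HasDerivAt (fun x : ℝ => log (x + 1)) (1 / (r + 1)) r := by
    have := ((hasDerivAt_id r).add_const (1 : ℝ)).log (by simp only [id]; positivity)
    simpa using this
  have h2 : HasDerivAt (fun x : ℝ => log x) (1 / r) r := by
    simpa using hasDerivAt_log hr.ne'
  have h3 : HasDerivAt (fun x : ℝ => x - 1) 1 r := (hasDerivAt_id r).sub_const 1
  have h4 : HasDerivAt (fun x : ℝ => x + 1) 1 r := (hasDerivAt_id r).add_const 1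
  have h : HasDerivAt Tf _ r :=
    (((h3.mul h2).div_const 4).sub ((hasDerivAt_id r).mul h2)).add (h4.mul (h1.sub_const (log 2)))
  convert h using 1
  unfold Tf1
  simp only [id]
  field_simp
  ring

lemma Tf_one : Tf 1 = 0 := by
  unfold Tf
  norm_num

lemma Tf_nonneg {r : ℝ} (hr : 1 ≤ r) : 0 ≤ Tf r := by
  have hm : MonotoneOn Tf (Set.Ici 1) := by
    apply monotoneOn_of_deriv_nonneg (convex_Ici 1)
    · exact fun x hx => (hasDerivAt_Tf (lt_of_lt_of_le one_pos hx)).continuousAt.continuousWithinAt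
    · intro x hx
      rw [interior_Ici] at hx
      exact (hasDerivAt_Tf (lt_trans one_pos hx)).differentiableAt.differentiableWithinAt
    · intro x hx
      rw [interior_Ici] at hx
      have hx' : 1 < x := hx
      rw [(hasDerivAt_Tf (lt_trans one_pos hx')).deriv]
      exact Tf1_nonneg hx'.le
  have := hm (Set.mem_Ici.mpr le_rfl) (Set.mem_Ici.mpr hr) hr
  rwa [Tf_one] at this

/-- The piece of the two-point inequality for `p ≥ q`. -/
lemma piece_aux {p q : ℝ} (hq : 0 < q) (hpq : q ≤ p) :
    p * log p + q * log q - (p + q) * log ((p + q) / 2) ≤ (p - q) * (log p - log q) / 4 := by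
  have hp : 0 < p := by linarith
  set r := p / q with hr
  have hr1 : 1 ≤ r := by rw [hr, le_div_iff₀ hq]; linarith
  have hr0 : 0 < r := by linarith
  have hT := mul_le_mul_of_nonneg_left (Tf_nonneg hr1) hq.le
  have ep : p = r * q := by rw [hr]; field_simp
  have lp : log p = log r + log q := by rw [ep, log_mul hr0.ne' hq.ne']
  have lm : log ((p + q) / 2) = log (r + 1) - log 2 + log q := by
    rw [show (p + q) / 2 = q * (r + 1) / 2 by rw [ep]; ring,
      log_div (by positivity) (by norm_num), log_mul hq.ne' (by positivity)]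
    ring
  rw [lm, lp]
  unfold Tf at hT
  rw [ep]
  nlinarith

/-- The piece of the two-point inequality for all positive `p, q`. -/
lemma piece {p q : ℝ} (hp : 0 < p) (hq : 0 < q) :
    p * log p + q * log q - (p + q) * log ((p + q) / 2) ≤ (p - q) * (log p - log q) / 4 := by
  rcases le_total q p with h | h
  · exact piece_aux hq h
  · have := piece_aux hp h
    rw [add_comm q p] at this
    nlinarith

/-- **The two-point modified log-Sobolev inequality.** -/
theorem mlsi_two_point {u v : ℝ} (hu0 : 0 < u) (hu1 : u < 1) (hv0 : 0 < v) (hv1 : v < 1) :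
    2 * (hn ((u + v) / 2) - (hn u + hn v) / 2) ≤ kap u v := by
  have h1 := piece hu0 hv0
  have h2 := piece (p := 1 - u) (q := 1 - v) (by linarith) (by linarith)
  unfold hn kap logit Real.negMulLog
  rw [show (1 - u + (1 - v)) / 2 = 1 - (u + v) / 2 by ring,
    show 1 - u + (1 - v) = 2 - (u + v) by ring] at h2
  rw [show (u + v) * log ((u + v) / 2) = 2 * (((u + v) / 2) * log ((u + v) / 2)) by ring] at h1
  rw [show (2 - (u + v)) * log (1 - (u + v) / 2)
    = 2 * ((1 - (u + v) / 2) * log (1 - (u + v) / 2)) by ring] at h2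
  nlinarith

/-- `hn` is positive inside the unit interval. -/
lemma hn_pos {u : ℝ} (h0 : 0 < u) (h1 : u < 1) : 0 < hn u := by
  unfold hn
  have a : 0 < Real.negMulLog u := by
    unfold Real.negMulLog
    have := Real.log_neg h0 h1
    nlinarith
  have b := Real.negMulLog_nonneg (x := 1 - u) (by linarith) (by linarith)
  linarith

/-- `hn` is concave on the unit interval. -/
lemma hn_concave : ConcaveOn ℝ (Set.Icc 0 1) hn := by
  have hc := Real.concaveOn_negMulLog
  refine ⟨convex_Icc 0 1, ?_⟩
  intro x hx y hy a b ha hb hab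
  have h1 := hc.2 (x := x) (y := y) hx.1 hy.1 ha hb hab
  have h2 := hc.2 (x := 1 - x) (y := 1 - y) (by simpa using hx.2) (by simpa using hy.2) ha hb hab
  simp only [smul_eq_mul] at *
  unfold hn
  have e : 1 - (a * x + b * y) = a * (1 - x) + b * (1 - y) := by
    have : b = 1 - a := by linarith
    subst this
    ring
  rw [e]
  nlinarith

variable {n : ℕ}

lemma avg_mem_Ioo {a : (Fin n → Bool) → ℝ} (h : Inside a) : 0 < avg a ∧ avg a < 1 := by
  unfold avg Inside at *
  have hc : (0 : ℝ) < 2 ^ n := by positivity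
  have hcard : ∑ _x : (Fin n → Bool), (1 : ℝ) = 2 ^ n := by simp [Finset.card_univ]
  have hne : (Finset.univ : Finset (Fin n → Bool)).Nonempty := Finset.univ_nonempty
  constructor
  · exact div_pos (Finset.sum_pos (fun x _ => (h x).1) hne) hc
  · rw [div_lt_one hc, ← hcard]
    exact Finset.sum_lt_sum_of_nonempty hne (fun x _ => (h x).2)

/-- `eH a ≤ hn (avg a)`. -/
theorem eH_le_hn_avg {a : (Fin n → Bool) → ℝ} (h : Inside a) : eH a ≤ hn (avg a) := by
  have hj := hn_concave.le_map_sum (t := Finset.univ) (w := fun _ : Fin n → Bool => (1 : ℝ) / 2 ^ n)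
    (p := a) (fun _ _ => by positivity)
    (by simp [Finset.card_univ])
    (fun x _ => ⟨(h x).1.le, (h x).2.le⟩)
  simp only [smul_eq_mul] at hj
  unfold eH avg
  have e1 : ∑ x, (1 : ℝ) / 2 ^ n * hn (a x) = (∑ x, hn (a x)) / 2 ^ n := by
    rw [Finset.sum_div]
    exact Finset.sum_congr rfl (fun x _ => by ring)
  have e2 : ∑ x, (1 : ℝ) / 2 ^ n * a x = (∑ x, a x) / 2 ^ n := by
    rw [Finset.sum_div]
    exact Finset.sum_congr rfl (fun x _ => by ring)
  rw [e1, e2] at hj
  exact hj

/-- `0 < eH a`. -/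
theorem eH_pos {a : (Fin n → Bool) → ℝ} (h : Inside a) : 0 < eH a := by
  unfold eH avg
  have hc : (0 : ℝ) < 2 ^ n := by positivity
  exact div_pos (Finset.sum_pos (fun x _ => hn_pos (h x).1 (h x).2) Finset.univ_nonempty) hc

end Vale.Agent.Lib.P322x
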