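import Vale.Agent.Lib.P322.Bridge

/-! The energy of a function on the cube and its splitting along the first coordinate. An
abstract induction on the dimension follows from a two-point step. -/

set_option linter.unusedVariables false
set_option linter.unusedSectionVars false

namespace Vale.Agent.Lib.P322x

open Finset Vale.Agent.Lib.P311 Vale.Agent.Lib.P322

/-- The deficit `log 2 - Psi t`. -/
noncomputable def dfc (t : ℝ) : ℝ := Real.log 2 - Psi t

/-- The two-point cost `(a - b) (psi a - psi b) / 4`. -/
noncomputable def cst (a b : ℝ) : ℝ := (a - b) * (psi a - psi b) / 4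

/-- The average over the cube. -/
noncomputable def mean {n : ℕ} (u : (Fin n → Bool) → ℝ) : ℝ := (∑ x, u x) / 2 ^ n

/-- The energy of `g`: for each coordinate, the average of the two-point cost along the edges in
that direction. -/
noncomputable def energy {n : ℕ} (g : (Fin n → Bool) → ℝ) : ℝ :=
  ∑ i, mean (fun x => cst (g x) (g (flp x i)))

lemma cst_comm (a b : ℝ) : cst a b = cst b a := by unfold cst; ring

lemma mean_congr {n : ℕ} {u v : (Fin n → Bool) → ℝ} (h : ∀ x, u x = v x) : mean u = mean v := by
  unfold mean; simp_rw [h]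

lemma mean_add {n : ℕ} (u v : (Fin n → Bool) → ℝ) :
    mean (fun x => u x + v x) = mean u + mean v := by
  unfold mean; rw [Finset.sum_add_distrib, add_div]

lemma mean_const {n : ℕ} (c : ℝ) : mean (fun _ : Fin n → Bool => c) = c := by
  unfold mean
  simp [Finset.card_univ]

lemma mean_le_mean {n : ℕ} {u v : (Fin n → Bool) → ℝ} (h : ∀ x, u x ≤ v x) : mean u ≤ mean v := by
  unfold mean
  apply div_le_div_of_nonneg_right (Finset.sum_le_sum fun x _ => h x) (by positivity)

lemma mean_mul_left {n : ℕ} (c : ℝ) (u : (Fin n → Bool) → ℝ) :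
    mean (fun x => c * u x) = c * mean u := by
  unfold mean; rw [← Finset.mul_sum, mul_div_assoc]

lemma mean_flp {n : ℕ} (i : Fin n) (u : (Fin n → Bool) → ℝ) :
    mean (fun x => u (flp x i)) = mean u := by
  unfold mean; rw [sum_flp i u]

/-- The restriction of `u` to the face where the first coordinate is `b`. -/
def child {n : ℕ} {α : Type*} (u : (Fin (n + 1) → Bool) → α) (b : Bool) (x : Fin n → Bool) : α :=
  u (Fin.cons b x)

lemma sum_split {n : ℕ} (u : (Fin (n + 1) → Bool) → ℝ) :
    ∑ x, u x = ∑ x, child u false x + ∑ x, child u true x := by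
  rw [← (Fin.consEquiv (fun _ => Bool)).sum_comp]
  rw [Fintype.sum_prod_type]
  simp [child, Fin.consEquiv, add_comm]

lemma mean_split {n : ℕ} (u : (Fin (n + 1) → Bool) → ℝ) :
    mean u = (mean (child u false) + mean (child u true)) / 2 := by
  unfold mean
  rw [sum_split, pow_succ]
  have : (2 : ℝ) ^ n ≠ 0 := by positivity
  field_simp

lemma flp_cons_zero {n : ℕ} (b : Bool) (x : Fin n → Bool) :
    flp (Fin.cons b x : Fin (n + 1) → Bool) 0 = Fin.cons (!b) x := by
  funext j
  refine Fin.cases ?_ (fun k => ?_) j
  · simp [flp]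
  · simp [flp]

lemma flp_cons_succ {n : ℕ} (b : Bool) (x : Fin n → Bool) (i : Fin n) :
    flp (Fin.cons b x : Fin (n + 1) → Bool) i.succ = Fin.cons b (flp x i) := by
  funext j
  refine Fin.cases ?_ (fun k => ?_) j
  · simp [flp, Function.update_of_ne (Fin.succ_ne_zero i).symm]
  · by_cases h : k = i
    · subst h; simp [flp]
    · have h' : k.succ ≠ i.succ := fun e => h (Fin.succ_inj.mp e)
      simp [flp, Function.update_of_ne h', Function.update_of_ne h]

/-- The energy splits along the first coordinate. -/
theorem energy_split {n : ℕ} (g : (Fin (n + 1) → Bool) → ℝ) :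
    energy g = (energy (child g false) + energy (child g true)) / 2
      + mean (fun x => cst (child g false x) (child g true x)) := by
  unfold energy
  rw [Fin.sum_univ_succ]
  have h0 : mean (fun x => cst (g x) (g (flp x 0)))
      = mean (fun x => cst (child g false x) (child g true x)) := by
    rw [mean_split]
    have e1 : child (fun x => cst (g x) (g (flp x 0))) false
        = fun x => cst (child g false x) (child g true x) := by
      funext x; simp [child, flp_cons_zero]
    have e2 : child (fun x => cst (g x) (g (flp x 0))) true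
        = fun x => cst (child g false x) (child g true x) := by
      funext x; simp [child, flp_cons_zero, cst_comm]
    rw [e1, e2]; ring
  have hs : ∀ i : Fin n, mean (fun x => cst (g x) (g (flp x i.succ)))
      = (mean (fun x => cst (child g false x) (child g false (flp x i)))
        + mean (fun x => cst (child g true x) (child g true (flp x i)))) / 2 := by
    intro i
    rw [mean_split]
    congr 2 <;> · apply mean_congr; intro x; simp [child, flp_cons_succ]
  rw [h0]
  simp_rw [hs]
  rw [← Finset.sum_div, Finset.sum_add_distrib]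
  ring

/-- Induction on the dimension. `Q m d E` is a property of a mean, a mean deficit and an energy;
it holds for the constants, and it passes from two functions to the function having them as
restrictions. Then it holds for every function with values in `(-1, 1)`. -/
theorem two_point_induction (Q : ℝ → ℝ → ℝ → Prop)
    (hbase : ∀ c : ℝ, |c| < 1 → Q c (dfc c) 0)
    (hstep : ∀ (n : ℕ) (g₀ g₁ : (Fin n → Bool) → ℝ), (∀ x, |g₀ x| < 1) → (∀ x, |g₁ x| < 1) →
      ∀ E₀ E₁ : ℝ, Q (mean g₀) (mean fun x => dfc (g₀ x)) E₀ → Q (mean g₁) (mean fun x => dfc (g₁ x)) E₁ →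
        Q ((mean g₀ + mean g₁) / 2) ((mean (fun x => dfc (g₀ x)) + mean (fun x => dfc (g₁ x))) / 2)
          ((E₀ + E₁) / 2 + mean (fun x => cst (g₀ x) (g₁ x))))
    (n : ℕ) (g : (Fin n → Bool) → ℝ) (hg : ∀ x, |g x| < 1) :
    Q (mean g) (mean fun x => dfc (g x)) (energy g) := by
  induction n with
  | zero =>
    have h1 : ∀ u : (Fin 0 → Bool) → ℝ, mean u = u default := by
      intro u
      unfold mean
      simp
      exact congrArg u (Subsingleton.elim _ _)
    have h2 : energy g = 0 := by
      unfold energy
      simp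
    rw [h1, h1, h2]
    exact hbase _ (hg _)
  | succ n ih =>
    have h1 := ih (child g false) (fun x => hg _)
    have h2 := ih (child g true) (fun x => hg _)
    have h3 := hstep n (child g false) (child g true) (fun x => hg _) (fun x => hg _) _ _ h1 h2
    rw [energy_split, mean_split g]
    have e : mean (fun x => dfc (g x))
        = (mean (fun x => dfc (child g false x)) + mean (fun x => dfc (child g true x))) / 2 :=
      mean_split _
    rw [e]
    exact h3

/-- The relative entropy term. -/
noncomputable def klt (u v : ℝ) : ℝ := u * (Real.log u - Real.log v)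

/-- Tangent plane of the relative entropy term. -/
lemma klt_tangent {u v U V : ℝ} (hu : 0 < u) (hv : 0 < v) (hU : 0 < U) (hV : 0 < V) :
    u * (Real.log U - Real.log V) + u - v * (U / V) ≤ klt u v := by
  unfold klt
  have ht : 0 < (v * U) / (u * V) := by positivity
  have h := Real.log_le_sub_one_of_pos ht
  have e : Real.log ((v * U) / (u * V))
      = Real.log v + Real.log U - Real.log u - Real.log V := by
    rw [Real.log_div (by positivity) (by positivity), Real.log_mul hv.ne' hU.ne',
      Real.log_mul hu.ne' hV.ne']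
    ring
  rw [e] at h
  have h2 := mul_le_mul_of_nonneg_left h hu.le
  have e2 : u * ((v * U) / (u * V) - 1) = v * (U / V) - u := by
    field_simp
  rw [e2] at h2
  nlinarith [h2]

lemma mean_pos {n : ℕ} {u : (Fin n → Bool) → ℝ} (h : ∀ x, 0 < u x) : 0 < mean u := by
  unfold mean
  have : (Finset.univ : Finset (Fin n → Bool)).Nonempty := Finset.univ_nonempty
  exact div_pos (Finset.sum_pos (fun x _ => h x) this) (by positivity)

/-- The log-sum inequality on the cube. -/
lemma klt_mean {n : ℕ} {u v : (Fin n → Bool) → ℝ} (hu : ∀ x, 0 < u x) (hv : ∀ x, 0 < v x) :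
    klt (mean u) (mean v) ≤ mean (fun x => klt (u x) (v x)) := by
  have hU := mean_pos hu
  have hV := mean_pos hv
  have h : mean (fun x => u x * (Real.log (mean u) - Real.log (mean v)) + u x - v x * (mean u / mean v))
      ≤ mean (fun x => klt (u x) (v x)) :=
    mean_le_mean fun x => klt_tangent (hu x) (hv x) hU hV
  have e : mean (fun x => u x * (Real.log (mean u) - Real.log (mean v)) + u x - v x * (mean u / mean v))
      = klt (mean u) (mean v) := by
    have : ∀ x, u x * (Real.log (mean u) - Real.log (mean v)) + u x - v x * (mean u / mean v)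
        = (Real.log (mean u) - Real.log (mean v)) * u x + (u x + (-(mean u / mean v)) * v x) := by
      intro x; ring
    rw [mean_congr this, mean_add, mean_add, mean_mul_left, mean_mul_left]
    unfold klt
    field_simp
    ring
  linarith

lemma cst_eq_klt (a b : ℝ) :
    cst a b = (klt (1 + a) (1 + b) + klt (1 + b) (1 + a) + klt (1 - a) (1 - b) + klt (1 - b) (1 - a)) / 8 := by
  unfold cst klt psi
  ring

lemma mean_one_add {n : ℕ} (u : (Fin n → Bool) → ℝ) : mean (fun x => 1 + u x) = 1 + mean u := by
  rw [mean_add, mean_const]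

lemma mean_one_sub {n : ℕ} (u : (Fin n → Bool) → ℝ) : mean (fun x => 1 - u x) = 1 - mean u := by
  have : ∀ x, 1 - u x = 1 + (-1) * u x := fun x => by ring
  rw [mean_congr this, mean_add, mean_const, mean_mul_left]; ring

/-- The cost is jointly convex: Jensen inequality for the two-point cost. -/
theorem cst_mean_le {n : ℕ} {a b : (Fin n → Bool) → ℝ} (ha : ∀ x, |a x| < 1) (hb : ∀ x, |b x| < 1) :
    cst (mean a) (mean b) ≤ mean (fun x => cst (a x) (b x)) := by
  have ap : ∀ x, 0 < 1 + a x := fun x => by linarith [(abs_lt.mp (ha x)).1]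
  have am : ∀ x, 0 < 1 - a x := fun x => by linarith [(abs_lt.mp (ha x)).2]
  have bp : ∀ x, 0 < 1 + b x := fun x => by linarith [(abs_lt.mp (hb x)).1]
  have bm : ∀ x, 0 < 1 - b x := fun x => by linarith [(abs_lt.mp (hb x)).2]
  have h1 := klt_mean ap bp
  have h2 := klt_mean bp ap
  have h3 := klt_mean am bm
  have h4 := klt_mean bm am
  rw [mean_one_add, mean_one_add] at h1 h2
  rw [mean_one_sub, mean_one_sub] at h3 h4
  rw [cst_eq_klt]
  have e : mean (fun x => cst (a x) (b x))
      = (mean (fun x => klt (1 + a x) (1 + b x)) + mean (fun x => klt (1 + b x) (1 + a x))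
        + mean (fun x => klt (1 - a x) (1 - b x)) + mean (fun x => klt (1 - b x) (1 - a x))) / 8 := by
    have : ∀ x, cst (a x) (b x) = (1 / 8 : ℝ) * (klt (1 + a x) (1 + b x) + (klt (1 + b x) (1 + a x)
        + (klt (1 - a x) (1 - b x) + klt (1 - b x) (1 - a x)))) := fun x => by
      rw [cst_eq_klt]; ring
    rw [mean_congr this, mean_mul_left, mean_add, mean_add, mean_add]
    ring
  rw [e]
  linarith

lemma mean_abs_lt {n : ℕ} {u : (Fin n → Bool) → ℝ} (h : ∀ x, |u x| < 1) : |mean u| < 1 := by
  have h1 : 0 < mean (fun x => 1 + u x) := mean_pos fun x => by linarith [(abs_lt.mp (h x)).1]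
  have h2 : 0 < mean (fun x => 1 - u x) := mean_pos fun x => by linarith [(abs_lt.mp (h x)).2]
  rw [mean_one_add] at h1
  rw [mean_one_sub] at h2
  rw [abs_lt]; constructor <;> linarith

/-- The form of the induction with a function `K` of the mean and the mean deficit. -/
theorem energy_ge_of_two_point (K : ℝ → ℝ → ℝ)
    (hbase : ∀ c : ℝ, |c| < 1 → K c (dfc c) ≤ 0)
    (hstep : ∀ (n : ℕ) (g₀ g₁ : (Fin n → Bool) → ℝ), (∀ x, |g₀ x| < 1) → (∀ x, |g₁ x| < 1) →
      K ((mean g₀ + mean g₁) / 2) ((mean (fun x => dfc (g₀ x)) + mean (fun x => dfc (g₁ x))) / 2)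
        ≤ (K (mean g₀) (mean fun x => dfc (g₀ x)) + K (mean g₁) (mean fun x => dfc (g₁ x))) / 2
          + mean (fun x => cst (g₀ x) (g₁ x)))
    (n : ℕ) (g : (Fin n → Bool) → ℝ) (hg : ∀ x, |g x| < 1) :
    K (mean g) (mean fun x => dfc (g x)) ≤ energy g := by
  refine two_point_induction (fun m d E => K m d ≤ E) hbase ?_ n g hg
  intro n g₀ g₁ h₀ h₁ E₀ E₁ hE₀ hE₁
  have := hstep n g₀ g₁ h₀ h₁
  linarith

end Vale.Agent.Lib.P322x
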