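import Vale.Agent.Lib.P322x.Flow
import Vale.Agent.Lib.P322.Main3

/-! The full inequality from a functional inequality for the energy at low noise. -/

set_option linter.unusedVariables false
set_option linter.unusedSectionVars false

namespace Vale.Agent.Lib.P322x

open Finset Vale.Agent.Lib.P311 Vale.Agent.Lib.P322

variable {n : ℕ}

lemma mean_noise (ρ : ℝ) (F : (Fin n → Bool) → ℝ) : mean (noise ρ F) = hat F ∅ := by
  unfold mean
  have := sum_noise ρ F
  simp only [Fintype.card_fin] at this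
  rw [this]
  have h2 : (2 : ℝ) ^ n ≠ 0 := by positivity
  field_simp

lemma mean_dfc_eq (g : (Fin n → Bool) → ℝ) :
    mean (fun y => dfc (g y)) = Real.log 2 - (∑ y, Psi (g y)) / 2 ^ n := by
  unfold mean dfc
  rw [Finset.sum_sub_distrib]
  simp only [Finset.sum_const, Finset.card_univ, Fintype.card_fun, Fintype.card_bool,
    Fintype.card_fin, nsmul_eq_mul]
  have h2 : (2 : ℝ) ^ n ≠ 0 := by positivity
  push_cast
  field_simp

lemma exists_signs {F : (Fin n → Bool) → ℝ} (hF : ∀ x, F x = 1 ∨ F x = -1) (hm : |hat F ∅| < 1) :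
    (∃ x, F x = 1) ∧ (∃ x, F x = -1) := by
  have hs := sum_eq_hat_empty F
  simp only [Fintype.card_fin] at hs
  have hN : (0 : ℝ) < 2 ^ n := by positivity
  have hcard : ∑ y : Fin n → Bool, (1 : ℝ) = 2 ^ n := by simp [Finset.card_univ]
  have hm1 := abs_lt.mp hm
  constructor
  · by_contra hcon
    push Not at hcon
    have hall : ∀ x, F x = -1 := fun x => (hF x).resolve_left (hcon x)
    have : ∑ x, F x = -2 ^ n := by
      simp_rw [hall]
      rw [Finset.sum_neg_distrib, hcard]
    rw [this] at hs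
    nlinarith
  · by_contra hcon
    push Not at hcon
    have hall : ∀ x, F x = 1 := fun x => (hF x).resolve_right (hcon x)
    have : ∑ x, F x = 2 ^ n := by
      simp_rw [hall]
      exact hcard
    rw [this] at hs
    nlinarith

/-- The reduction. Let `ξ` be a function of the mean. Suppose that for every function `g` on a cube
with values in `(-1, 1)` and each `s` in `[R₀, 1)`, with `R₀ ≤ 191/200`: if the mean deficit of `g`
is below `ξ (mean g) * dfc s`, then the energy of `g` is at least `ξ (mean g) * (s * psi s)`. Suppose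
also `(1 - ξ μ) * dfc ρ ≤ Psi μ` for `|μ| < 1/5` and `ρ` in `[R₀, 1)`. Then the Courtade-Kumar
inequality holds for every Boolean function and every crossover probability. -/
theorem ck_of_energy (ξ : ℝ → ℝ) {R₀ : ℝ} (hR0 : 0 < R₀) (hR1 : R₀ ≤ 191 / 200)
    (hmain : ∀ (n : ℕ) (g : (Fin n → Bool) → ℝ), (∀ x, |g x| < 1) → ∀ s, R₀ ≤ s → s < 1 →
      mean (fun y => dfc (g y)) < ξ (mean g) * dfc s → ξ (mean g) * (s * psi s) ≤ energy g)
    (hxi : ∀ μ ρ : ℝ, |μ| < 1 / 5 → R₀ ≤ ρ → ρ < 1 → (1 - ξ μ) * dfc ρ ≤ Psi μ)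
    (f : (Fin n → Bool) → Bool) {ε : ℝ} (h0 : 0 ≤ ε) (h1 : ε ≤ 1 / 2) :
    mutualInfo f ε ≤ 1 - h2 ε := by
  by_cases hcase : 9 / 400 ≤ ε ∨
      1 / 10 ≤ |((Finset.univ.filter fun x => f x = true).card : ℝ) / 2 ^ n - 1 / 2|
  · exact ck_main3 f h0 h1 hcase
  push Not at hcase
  obtain ⟨hε, hμ⟩ := hcase
  have hμ5 : |hat (sgf f) ∅| < 1 / 5 := by
    rw [hat_sgf_empty, abs_mul, abs_of_pos (by norm_num : (0 : ℝ) < 2)]
    linarith
  rw [mutualInfo_eq f h0 (by linarith), one_sub_h2' h0 h1]
  have hl : 0 < Real.log 2 := Real.log_pos (by norm_num)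
  apply div_le_div_of_nonneg_right _ hl.le
  set μ := hat (sgf f) ∅ with hμdef
  set F := sgf f with hFdef
  have hF : ∀ x, F x = 1 ∨ F x = -1 := sgf_cases f
  have hρ1 : 1 - 2 * ε ≤ 1 := by linarith
  have hρ0 : R₀ ≤ 1 - 2 * ε := by linarith
  rcases lt_or_eq_of_le hρ1 with hlt | heq
  · -- the main case
    obtain ⟨⟨x₁, h₁⟩, ⟨x₂, h₂⟩⟩ := exists_signs hF (by
      have := abs_nonneg μ
      linarith)
    have hcmp := flow_compare hF h₁ h₂ (ξ₀ := ξ μ) hR0
      (fun ρ hρ0 hρ1 hlt => by
        have habs : |ρ| < 1 := by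
          rw [abs_of_pos (by linarith)]
          exact hρ1
        have hg := abs_noise_lt habs hF h₁ h₂
        have hm := mean_noise ρ F
        have := hmain n (noise ρ F) hg ρ hρ0 hρ1 (by rw [hm]; exact hlt)
        rw [hm] at this
        exact this) hρ0 hρ1
    have hx := hxi μ (1 - 2 * ε) hμ5 hρ0 hlt
    rw [mean_dfc_eq] at hcmp
    have e : Psi (1 - 2 * ε) = Real.log 2 - dfc (1 - 2 * ε) := by unfold dfc; ring
    rw [e]
    nlinarith
  · -- no noise
    rw [heq]
    have e : ∀ y, Psi (noise 1 F y) = Real.log 2 := by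
      intro y
      rw [noise_at_one]
      rcases hF y with h | h <;> rw [h]
      · exact Psi_one
      · exact Psi_neg_one
    simp_rw [e]
    have hP := Psi_nonneg (t := μ) (by
      have := abs_nonneg μ
      linarith)
    simp only [Finset.sum_const, Finset.card_univ, Fintype.card_fun, Fintype.card_bool,
      Fintype.card_fin, nsmul_eq_mul]
    have h2n : (2 : ℝ) ^ n ≠ 0 := by positivity
    push_cast
    rw [mul_div_cancel_left₀ _ h2n, Psi_one]
    linarith

end Vale.Agent.Lib.P322x
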