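import Vale.Agent.Lib.P322x.Energy

/-! The noise flow: derivative of the mean deficit along the noise parameter, and the comparison
with a dictator. -/

set_option linter.unusedVariables false
set_option linter.unusedSectionVars false

namespace Vale.Agent.Lib.P322x

open Finset Vale.Agent.Lib.P311 Vale.Agent.Lib.P322

variable {n : ℕ}

/-- The derivative of the noise in the noise parameter, on the Fourier side. -/
noncomputable def noiseD (ρ : ℝ) (F : (Fin n → Bool) → ℝ) (y : Fin n → Bool) : ℝ :=
  ∑ S : Finset (Fin n), ((S.card : ℝ) * ρ ^ (S.card - 1)) * hat F S * chi S y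

lemma hasDerivAt_noise (ρ : ℝ) (F : (Fin n → Bool) → ℝ) (y : Fin n → Bool) :
    HasDerivAt (fun r => noise r F y) (noiseD ρ F y) ρ := by
  unfold noise noiseD
  apply HasDerivAt.fun_sum
  intro S _
  exact (((hasDerivAt_pow S.card ρ)).mul_const (hat F S)).mul_const (chi S y)

/-- The number of coordinates of `S`, as the sum over coordinates of half the drop of its
character along the edges. -/
lemma sum_chi_drop (S : Finset (Fin n)) (y : Fin n → Bool) :
    ∑ i, (chi S y - chi S (flp y i)) / 2 = (S.card : ℝ) * chi S y := by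
  have h : ∀ i, (chi S y - chi S (flp y i)) / 2 = if i ∈ S then chi S y else 0 := by
    intro i
    split_ifs with hi
    · rw [chi_flp_of_mem hi]; ring
    · rw [chi_flp_of_notMem hi]; ring
  simp_rw [h]
  rw [Finset.sum_ite_mem]
  simp

lemma noise_drop (ρ : ℝ) (F : (Fin n → Bool) → ℝ) (y : Fin n → Bool) :
    ρ * noiseD ρ F y = ∑ i, (noise ρ F y - noise ρ F (flp y i)) / 2 := by
  unfold noise noiseD
  have h : ∀ i : Fin n, ((∑ S : Finset (Fin n), ρ ^ S.card * hat F S * chi S y)
      - ∑ S : Finset (Fin n), ρ ^ S.card * hat F S * chi S (flp y i)) / 2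
      = ∑ S : Finset (Fin n), ρ ^ S.card * hat F S * ((chi S y - chi S (flp y i)) / 2) := by
    intro i
    rw [← Finset.sum_sub_distrib, Finset.sum_div]
    apply Finset.sum_congr rfl; intro S _; ring
  simp_rw [h]
  rw [Finset.sum_comm, Finset.mul_sum]
  apply Finset.sum_congr rfl; intro S _
  rw [← Finset.mul_sum, sum_chi_drop]
  by_cases hc : S.card = 0
  · simp [hc]
  · have : ρ ^ S.card = ρ * ρ ^ (S.card - 1) := by
      rw [← pow_succ', Nat.sub_add_cancel (Nat.pos_of_ne_zero hc)]
    rw [this]; ring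

/-- Symmetrization of an edge sum. -/
lemma mean_psi_drop (g : (Fin n → Bool) → ℝ) (i : Fin n) :
    mean (fun y => psi (g y) * ((g y - g (flp y i)) / 2)) = mean (fun y => cst (g y) (g (flp y i))) := by
  have h1 := mean_flp i (fun y => psi (g y) * ((g y - g (flp y i)) / 2))
  simp only [flp_flp] at h1
  have h2 : mean (fun y => cst (g y) (g (flp y i)))
      = (1 / 2 : ℝ) * (mean (fun y => psi (g y) * ((g y - g (flp y i)) / 2))
        + mean (fun y => psi (g (flp y i)) * ((g (flp y i) - g y) / 2))) := by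
    rw [← mean_add, ← mean_mul_left]
    apply mean_congr
    intro y
    unfold cst
    ring
  rw [h2, h1]
  ring

/-- The mean of `psi (g) * (rho * derivative)` is the energy. -/
lemma mean_psi_noiseD (ρ : ℝ) (F : (Fin n → Bool) → ℝ) :
    mean (fun y => psi (noise ρ F y) * (ρ * noiseD ρ F y)) = energy (noise ρ F) := by
  unfold energy
  simp_rw [← mean_psi_drop]
  have h : ∀ y, psi (noise ρ F y) * (ρ * noiseD ρ F y)
      = ∑ i, psi (noise ρ F y) * ((noise ρ F y - noise ρ F (flp y i)) / 2) := by
    intro y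
    rw [noise_drop, Finset.mul_sum]
  rw [mean_congr h]
  unfold mean
  rw [Finset.sum_comm, Finset.sum_div]

lemma hasDerivAt_dfc {t : ℝ} (h : |t| < 1) : HasDerivAt dfc (-psi t) t := by
  have := (hasDerivAt_Psi h).const_sub (Real.log 2)
  exact this

lemma continuous_dfc : Continuous dfc := continuous_const.sub continuous_Psi

lemma hasDerivAt_mean {ι : Type*} [Fintype ι] {ρ : ℝ} {u : ι → ℝ → ℝ} {u' : ι → ℝ}
    (h : ∀ i, HasDerivAt (u i) (u' i) ρ) (c : ℝ) :
    HasDerivAt (fun r => (∑ i, u i r) / c) ((∑ i, u' i) / c) ρ :=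
  (HasDerivAt.fun_sum fun i _ => h i).div_const c

/-- The derivative of the mean deficit along the noise parameter. -/
theorem hasDerivAt_mean_dfc {ρ : ℝ} (hρ : ρ ≠ 0) (F : (Fin n → Bool) → ℝ)
    (h : ∀ y, |noise ρ F y| < 1) :
    HasDerivAt (fun r => mean (fun y => dfc (noise r F y))) (-(energy (noise ρ F)) / ρ) ρ := by
  have h1 : ∀ y, HasDerivAt (fun r => dfc (noise r F y)) (-psi (noise ρ F y) * noiseD ρ F y) ρ :=
    fun y => HasDerivAt.comp (h₂ := dfc) (h := fun r => noise r F y) ρ (hasDerivAt_dfc (h y))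
      (hasDerivAt_noise ρ F y)
  have h2 := hasDerivAt_mean (u := fun y r => dfc (noise r F y)) h1 ((2 : ℝ) ^ n)
  have e : (∑ y, -psi (noise ρ F y) * noiseD ρ F y) / (2 : ℝ) ^ n = -(energy (noise ρ F)) / ρ := by
    rw [← mean_psi_noiseD]
    unfold mean
    have : ∀ y, psi (noise ρ F y) * (ρ * noiseD ρ F y)
        = ρ * (psi (noise ρ F y) * noiseD ρ F y) := fun y => by ring
    simp_rw [this]
    rw [← Finset.mul_sum]
    have : ∑ y, -psi (noise ρ F y) * noiseD ρ F y = - ∑ y, psi (noise ρ F y) * noiseD ρ F y := by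
      rw [← Finset.sum_neg_distrib]
      apply Finset.sum_congr rfl; intro y _; ring
    rw [this]
    field_simp
  rw [e] at h2
  exact h2

lemma continuous_noise (F : (Fin n → Bool) → ℝ) (y : Fin n → Bool) :
    Continuous (fun r => noise r F y) := by
  unfold noise
  fun_prop

lemma continuous_mean_dfc (F : (Fin n → Bool) → ℝ) :
    Continuous (fun r => mean (fun y => dfc (noise r F y))) := by
  unfold mean
  have : ∀ y, Continuous (fun r => dfc (noise r F y)) :=
    fun y => continuous_dfc.comp (continuous_noise F y)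
  fun_prop

lemma kern_pos {ρ : ℝ} (h : |ρ| < 1) (x y : Fin n → Bool) : 0 < kern ρ x y := by
  unfold kern
  apply Finset.prod_pos
  intro i _
  have h1 := (abs_lt.mp h).1
  have h2 := (abs_lt.mp h).2
  cases x i <;> cases y i <;> simp [sg] <;> linarith

/-- The noise image of a non-constant sign function has values in the open interval. -/
lemma abs_noise_lt {ρ : ℝ} (h : |ρ| < 1) {F : (Fin n → Bool) → ℝ} (hF : ∀ x, F x = 1 ∨ F x = -1)
    {x₁ x₂ : Fin n → Bool} (h₁ : F x₁ = 1) (h₂ : F x₂ = -1) (y : Fin n → Bool) :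
    |noise ρ F y| < 1 := by
  rw [noise_eq_sum_kern, abs_lt]
  have hs := sum_kern ρ y
  have hk := fun x => kern_pos (n := n) h x y
  have hFb : ∀ x, -1 ≤ F x ∧ F x ≤ 1 := by
    intro x
    rcases hF x with h | h <;> rw [h] <;> norm_num
  constructor
  · have : 0 < ∑ x, kern ρ x y * (1 + F x) := by
      apply Finset.sum_pos' (fun x _ => mul_nonneg (hk x).le (by linarith [(hFb x).1]))
      exact ⟨x₁, Finset.mem_univ _, mul_pos (hk x₁) (by rw [h₁]; norm_num)⟩
    have e : ∑ x, kern ρ x y * (1 + F x) = ∑ x, kern ρ x y + ∑ x, kern ρ x y * F x := by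
      rw [← Finset.sum_add_distrib]; apply Finset.sum_congr rfl; intro x _; ring
    rw [e, hs] at this
    linarith
  · have : 0 < ∑ x, kern ρ x y * (1 - F x) := by
      apply Finset.sum_pos' (fun x _ => mul_nonneg (hk x).le (by linarith [(hFb x).2]))
      exact ⟨x₂, Finset.mem_univ _, mul_pos (hk x₂) (by rw [h₂]; norm_num)⟩
    have e : ∑ x, kern ρ x y * (1 - F x) = ∑ x, kern ρ x y - ∑ x, kern ρ x y * F x := by
      rw [← Finset.sum_sub_distrib]; apply Finset.sum_congr rfl; intro x _; ring
    rw [e, hs] at this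
    linarith

lemma noise_at_one (F : (Fin n → Bool) → ℝ) (y : Fin n → Bool) : noise 1 F y = F y := by
  unfold noise
  simp only [one_pow, one_mul]
  exact (fourier_inv F y).symm

lemma dfc_one : dfc 1 = 0 := by
  unfold dfc; rw [Psi_one]; ring

lemma dfc_neg_one : dfc (-1) = 0 := by
  unfold dfc; rw [Psi_neg_one]; ring

/-- Comparison with the dictator along the flow. Suppose that for each noise `ρ` in `[R₀, 1)` the
noise image `g` satisfies: if its mean deficit is below `ξ₀ (log 2 - Psi ρ)`, its energy is at least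
`ξ₀ ρ psi ρ`. Then the mean deficit of the noise image is at least `ξ₀ (log 2 - Psi ρ)` throughout
`[R₀, 1]`. -/
theorem flow_compare {F : (Fin n → Bool) → ℝ} (hF : ∀ x, F x = 1 ∨ F x = -1)
    {x₁ x₂ : Fin n → Bool} (h₁ : F x₁ = 1) (h₂ : F x₂ = -1) {ξ₀ R₀ : ℝ} (hR : 0 < R₀)
    (hyp : ∀ ρ, R₀ ≤ ρ → ρ < 1 → mean (fun y => dfc (noise ρ F y)) < ξ₀ * dfc ρ →
      ξ₀ * (ρ * psi ρ) ≤ energy (noise ρ F))
    {ρ : ℝ} (h0 : R₀ ≤ ρ) (h1 : ρ ≤ 1) :
    ξ₀ * dfc ρ ≤ mean (fun y => dfc (noise ρ F y)) := by
  by_contra hcon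
  push Not at hcon
  set z : ℝ → ℝ := fun r => mean (fun y => dfc (noise r F y)) - ξ₀ * dfc r with hz
  have hzc : Continuous z := (continuous_mean_dfc F).sub (continuous_const.mul continuous_dfc)
  have hz1 : z 1 = 0 := by
    simp only [hz]
    have : ∀ y, dfc (noise 1 F y) = 0 := by
      intro y
      rw [noise_at_one]
      rcases hF y with h | h <;> rw [h]
      · exact dfc_one
      · exact dfc_neg_one
    simp_rw [this]
    rw [mean_const, dfc_one]; ring
  have hzρ : z ρ < 0 := by simp only [hz]; linarith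
  have hρ1 : ρ < 1 := by
    rcases lt_or_eq_of_le h1 with h | h
    · exact h
    · rw [h, hz1] at hzρ; exact absurd hzρ (lt_irrefl _)
  -- the first point to the right of `ρ` where `z` is nonnegative
  set S : Set ℝ := Set.Icc ρ 1 ∩ {r | 0 ≤ z r} with hS
  have hSc : IsClosed S := isClosed_Icc.inter (isClosed_le continuous_const hzc)
  have hSne : S.Nonempty := ⟨1, ⟨h1, le_rfl⟩, by simp only [Set.mem_ofPred_eq, hz1]; exact le_rfl⟩
  have hSb : BddBelow S := ⟨ρ, fun r hr => hr.1.1⟩
  set c := sInf S with hc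
  have hcS : c ∈ S := hSc.csInf_mem hSne hSb
  have hρc : ρ < c := by
    rcases lt_or_eq_of_le hcS.1.1 with h | h
    · exact h
    · have h3 := hcS.2
      rw [← h] at h3
      simp only [Set.mem_ofPred_eq] at h3
      linarith
  have hneg : ∀ r, ρ ≤ r → r < c → z r < 0 := by
    intro r hr hrc
    by_contra hh
    push Not at hh
    have : r ∈ S := ⟨⟨hr, by linarith [hcS.1.2]⟩, hh⟩
    have := csInf_le hSb this
    linarith
  have hanti : AntitoneOn z (Set.Icc ρ c) := by
    apply antitoneOn_of_deriv_nonpos (convex_Icc _ _) hzc.continuousOn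
    · intro r hr
      rw [interior_Icc] at hr
      have hr1 : r < 1 := by linarith [hr.2, hcS.1.2]
      have hr0 : 0 < r := by linarith [hr.1]
      have habs : |r| < 1 := by rw [abs_of_pos hr0]; exact hr1
      have hd1 := hasDerivAt_mean_dfc hr0.ne' F (abs_noise_lt habs hF h₁ h₂)
      have hd2 := (hasDerivAt_dfc habs).const_mul ξ₀
      exact ((hd1.sub hd2).differentiableAt).differentiableWithinAt
    · intro r hr
      rw [interior_Icc] at hr
      have hr1 : r < 1 := by linarith [hr.2, hcS.1.2]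
      have hr0 : 0 < r := by linarith [hr.1]
      have habs : |r| < 1 := by rw [abs_of_pos hr0]; exact hr1
      have hd1 := hasDerivAt_mean_dfc hr0.ne' F (abs_noise_lt habs hF h₁ h₂)
      have hd2 := (hasDerivAt_dfc habs).const_mul ξ₀
      have hd := (hd1.sub hd2).deriv
      change deriv z r = _ at hd
      rw [hd]
      have hzr := hneg r hr.1.le hr.2
      have hlt : mean (fun y => dfc (noise r F y)) < ξ₀ * dfc r := by
        simp only [hz] at hzr; linarith
      have hE := hyp r (by linarith [hr.1]) hr1 hlt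
      have : ξ₀ * psi r ≤ energy (noise r F) / r := by
        rw [le_div_iff₀ hr0]; nlinarith
      have e : -energy (noise r F) / r = -(energy (noise r F) / r) := by ring
      rw [e]
      linarith
  have hle := hanti ⟨le_rfl, hρc.le⟩ ⟨hρc.le, le_rfl⟩ hρc.le
  have := hcS.2
  simp only [Set.mem_ofPred_eq] at this
  linarith

end Vale.Agent.Lib.P322x
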