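import Vale.Agent.Lib.P322x.Defs

/-! Lemma K: the edge energy dominates a slope minus a multiple of the entropies.  The proof goes
through the even function `etaF x = log (2 cosh x) - x tanh x`, with `hn u = etaF (logit u / 2)`. -/

namespace Vale.Agent.Lib.P322x

open Real

/-- `log (2 cosh x) - x tanh x`. -/
noncomputable def etaF (x : ℝ) : ℝ := log (2 * cosh x) - x * (sinh x / cosh x)

lemma hasDerivAt_log2cosh (x : ℝ) : HasDerivAt (fun y => log (2 * cosh y)) (sinh x / cosh x) x := by
  have hc := cosh_pos x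
  have := ((hasDerivAt_cosh x).const_mul 2).log (by positivity)
  convert this using 1
  field_simp

lemma hasDerivAt_tanhF (x : ℝ) :
    HasDerivAt (fun y => sinh y / cosh y) (1 / cosh x ^ 2) x := by
  have hc := cosh_pos x
  have h2 : HasDerivAt (fun y => sinh y / cosh y) _ x :=
    (hasDerivAt_sinh x).div (hasDerivAt_cosh x) hc.ne'
  rw [show cosh x * cosh x - sinh x * sinh x = 1 by nlinarith [cosh_sq x]] at h2
  exact h2

lemma hasDerivAt_etaF (x : ℝ) : HasDerivAt etaF (-x / cosh x ^ 2) x := by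
  have hc := cosh_pos x
  have h3 := (hasDerivAt_log2cosh x).sub ((hasDerivAt_id x).mul (hasDerivAt_tanhF x))
  have h4 : HasDerivAt etaF _ x := h3
  convert h4 using 1
  simp only [id]
  field_simp
  ring

/-- The elementary inequality behind the monotonicity of `G`. -/
lemma log2cosh_mul_sinh {t : ℝ} (ht : 0 ≤ t) :
    t * cosh (2 * t) ≤ log (2 * cosh t) * sinh (2 * t) := by
  set s := exp (-(2 * t)) with hs
  have hs0 : 0 < s := exp_pos _
  have hs1 : s ≤ 1 := by rw [hs]; exact exp_le_one_iff.mpr (by linarith)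
  have he : exp (2 * t) = 1 / s := by rw [hs, exp_neg]; simp
  have hcosh : cosh (2 * t) = (1 / s + s) / 2 := by rw [cosh_eq, he]
  have hsinh : sinh (2 * t) = (1 / s - s) / 2 := by rw [sinh_eq, he]
  have h2c : 2 * cosh t = exp t * (1 + s) := by
    rw [cosh_eq, hs, mul_add, ← exp_add]
    ring_nf
  have hlog : log (2 * cosh t) = t + log (1 + s) := by
    rw [h2c, log_mul (exp_pos t).ne' (by positivity), log_exp]
  have h1 : s / (1 + s) ≤ log (1 + s) := by
    have := one_sub_inv_le_log_of_pos (x := 1 + s) (by positivity)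
    have e : 1 - (1 + s)⁻¹ = s / (1 + s) := by field_simp; ring
    linarith
  have h2 : 2 * t ≤ 1 / s - 1 := by
    have := log_le_sub_one_of_pos (x := 1 / s) (by positivity)
    rw [log_div one_ne_zero hs0.ne', log_one, hs, log_exp] at this
    rw [hs]
    linarith
  rw [hcosh, hsinh, hlog]
  have h3 : 0 ≤ 1 / s - s := by
    have : 1 ≤ 1 / s := by rw [le_div_iff₀ hs0]; linarith
    linarith
  have h4 : s / (1 + s) * (1 / s - s) = 1 - s := by field_simp; ring
  have h5 : s * (2 * t) ≤ s * (1 / s - 1) := mul_le_mul_of_nonneg_left h2 hs0.le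
  have h6 : s * (1 / s - 1) = 1 - s := by field_simp
  have h7 : s / (1 + s) * (1 / s - s) ≤ log (1 + s) * (1 / s - s) :=
    mul_le_mul_of_nonneg_right h1 h3
  nlinarith

/-- `G(t) = (η(w+t)+η(w-t)) cosh(w+t) cosh(w-t)`. -/
noncomputable def Gk (w t : ℝ) : ℝ :=
  (etaF (w + t) + etaF (w - t)) * (cosh (w + t) * cosh (w - t))

lemma Gk_alg {X Y cX cY sX sY a b : ℝ} (hcX : cX ≠ 0) (hcY : cY ≠ 0)
    (hX : cX ^ 2 = sX ^ 2 + 1) (hY : cY ^ 2 = sY ^ 2 + 1) :
    (-X / cX ^ 2 + Y / cY ^ 2) * (cX * cY)
      + ((a - X * (sX / cX)) + (b - Y * (sY / cY))) * (sX * cY - cX * sY)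
      = (a + b) * (sX * cY - cX * sY) - (X - Y) * (cX * cY - sX * sY) := by
  rw [← sub_eq_zero]
  have key : (-X / cX ^ 2 + Y / cY ^ 2) * (cX * cY)
      + ((a - X * (sX / cX)) + (b - Y * (sY / cY))) * (sX * cY - cX * sY)
      - ((a + b) * (sX * cY - cX * sY) - (X - Y) * (cX * cY - sX * sY))
      = X * (cY / cX) * (cX ^ 2 - sX ^ 2 - 1) + Y * (cX / cY) * (1 + sY ^ 2 - cY ^ 2) := by
    field_simp
    ring
  rw [key, hX, hY]
  ring

lemma hasDerivAt_Gk (w t : ℝ) :
    HasDerivAt (Gk w)
      ((log (2 * cosh (w + t)) + log (2 * cosh (w - t))) * sinh (2 * t) - 2 * t * cosh (2 * t)) t := by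
  have e1 : HasDerivAt (fun s => etaF (w + s)) _ t := HasDerivAt.comp_const_add w t (hasDerivAt_etaF (w + t))
  have e2 : HasDerivAt (fun s => etaF (w - s)) _ t := HasDerivAt.comp_const_sub w t (hasDerivAt_etaF (w - t))
  have c1 : HasDerivAt (fun s => cosh (w + s)) _ t := HasDerivAt.comp_const_add w t (hasDerivAt_cosh (w + t))
  have c2 : HasDerivAt (fun s => cosh (w - s)) _ t := HasDerivAt.comp_const_sub w t (hasDerivAt_cosh (w - t))
  have h : HasDerivAt (Gk w) _ t := (e1.add e2).mul (c1.mul c2)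
  convert h using 1
  have hS : sinh (2 * t) = sinh (w + t) * cosh (w - t) - cosh (w + t) * sinh (w - t) := by
    rw [← sinh_sub]; congr 1; ring
  have hC : cosh (2 * t) = cosh (w + t) * cosh (w - t) - sinh (w + t) * sinh (w - t) := by
    rw [← cosh_sub]; congr 1; ring
  have a1 := Gk_alg (X := w + t) (Y := w - t) (a := log (2 * cosh (w + t))) (b := log (2 * cosh (w - t)))
    (cosh_pos (w + t)).ne' (cosh_pos (w - t)).ne' (cosh_sq _) (cosh_sq _)
  simp only [Pi.add_apply, etaF]
  rw [hS, hC, show 2 * t = (w + t) - (w - t) by ring]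
  rw [← a1]
  ring

/-- The derivative of `G` is nonnegative for `t ≥ 0`. -/
lemma Gk_deriv_nonneg {w t : ℝ} (ht : 0 ≤ t) :
    0 ≤ (log (2 * cosh (w + t)) + log (2 * cosh (w - t))) * sinh (2 * t) - 2 * t * cosh (2 * t) := by
  have h1 := log2cosh_mul_sinh ht
  have hs : 0 ≤ sinh (2 * t) := sinh_nonneg_iff.mpr (by linarith)
  have hcX := cosh_pos (w + t)
  have hcY := cosh_pos (w - t)
  have hct := cosh_pos t
  have hprod : cosh (w + t) * cosh (w - t) = (cosh (2 * w) + cosh (2 * t)) / 2 := by
    rw [cosh_add, cosh_sub, cosh_two_mul, cosh_two_mul]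
    have := cosh_sq w
    have := cosh_sq t
    nlinarith
  have hge : cosh t ^ 2 ≤ cosh (w + t) * cosh (w - t) := by
    rw [hprod, cosh_two_mul t]
    have := one_le_cosh (2 * w)
    have := cosh_sq t
    nlinarith
  have hlog : 2 * log (2 * cosh t) ≤ log (2 * cosh (w + t)) + log (2 * cosh (w - t)) := by
    rw [← log_mul (by positivity) (by positivity), two_mul, ← log_mul (by positivity) (by positivity)]
    apply log_le_log (by positivity)
    nlinarith
  nlinarith

/-- `G(t) ≥ G(0)` for `t ≥ 0`. -/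
lemma Gk_ge {w t : ℝ} (ht : 0 ≤ t) : Gk w 0 ≤ Gk w t := by
  have hm : MonotoneOn (Gk w) (Set.Ici 0) := by
    apply monotoneOn_of_deriv_nonneg (convex_Ici 0)
    · exact fun x _ => (hasDerivAt_Gk w x).continuousAt.continuousWithinAt
    · exact fun x _ => (hasDerivAt_Gk w x).differentiableAt.differentiableWithinAt
    · intro x hx
      rw [interior_Ici] at hx
      rw [(hasDerivAt_Gk w x).deriv]
      exact Gk_deriv_nonneg (le_of_lt hx)
  exact hm (Set.mem_Ici.mpr le_rfl) (Set.mem_Ici.mpr ht) ht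

/-- The ratio `rt(w) = η(w) / tanh(w)`. -/
noncomputable def rtF (w : ℝ) : ℝ := etaF w * (cosh w / sinh w)

/-- (K2) in the product form: `rt(w) (tanh X + tanh Y) ≤ η X + η Y` for `X + Y = 2w`, `X ≥ Y`. -/
lemma K2_aux {w t : ℝ} (hw : 0 < w) (ht : 0 ≤ t) :
    rtF w * (sinh (w + t) / cosh (w + t) + sinh (w - t) / cosh (w - t))
      ≤ etaF (w + t) + etaF (w - t) := by
  have hcX := cosh_pos (w + t)
  have hcY := cosh_pos (w - t)
  have hsw : 0 < sinh w := sinh_pos_iff.mpr hw
  have hcw := cosh_pos w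
  have h := Gk_ge (w := w) ht
  have e1 : sinh (w + t) / cosh (w + t) + sinh (w - t) / cosh (w - t)
      = sinh (2 * w) / (cosh (w + t) * cosh (w - t)) := by
    rw [div_add_div _ _ hcX.ne' hcY.ne', ← sinh_add]
    ring_nf
  have e2 : rtF w * sinh (2 * w) = Gk w 0 := by
    unfold rtF Gk
    rw [sinh_two_mul]
    simp only [add_zero, sub_zero]
    field_simp
    ring
  rw [e1, ← mul_div_assoc, e2, div_le_iff₀ (by positivity)]
  exact h

/-- (K2) for all `X, Y` with `X + Y > 0`. -/
lemma K2 {X Y : ℝ} (h : 0 < X + Y) :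
    rtF ((X + Y) / 2) * (sinh X / cosh X + sinh Y / cosh Y) ≤ etaF X + etaF Y := by
  rcases le_total Y X with hXY | hXY
  · have := K2_aux (w := (X + Y) / 2) (t := (X - Y) / 2) (by linarith) (by linarith)
    rwa [show (X + Y) / 2 + (X - Y) / 2 = X by ring, show (X + Y) / 2 - (X - Y) / 2 = Y by ring] at this
  · have := K2_aux (w := (X + Y) / 2) (t := (Y - X) / 2) (by linarith) (by linarith)
    rw [show (X + Y) / 2 + (Y - X) / 2 = Y by ring, show (X + Y) / 2 - (Y - X) / 2 = X by ring] at this
    linarith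

/-- `L(w) = log (2 cosh w) / sinh² w`. -/
noncomputable def LF (w : ℝ) : ℝ := log (2 * cosh w) / sinh w ^ 2

lemma log2cosh_gt {w : ℝ} : 1 / 2 < log (2 * cosh w) := by
  have h1 : log 2 ≤ log (2 * cosh w) :=
    log_le_log (by norm_num) (by have := one_le_cosh w; linarith)
  have := log_two_gt_d9
  linarith

lemma LF_anti {w W : ℝ} (hw : 0 < w) (hwW : w ≤ W) : LF W ≤ LF w := by
  have hsw : 0 < sinh w := sinh_pos_iff.mpr hw
  have hsW : 0 < sinh W := sinh_pos_iff.mpr (by linarith)
  have hcw := cosh_pos w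
  have hcW := cosh_pos W
  have hs : sinh w ≤ sinh W := sinh_le_sinh.mpr hwW
  have hc : cosh w ≤ cosh W := by
    have h1 := cosh_sq w
    have h2 := cosh_sq W
    have : sinh w ^ 2 ≤ sinh W ^ 2 := by nlinarith
    nlinarith
  unfold LF
  rw [div_le_div_iff₀ (by positivity) (by positivity)]
  set x := sinh w ^ 2 with hx
  set x' := sinh W ^ 2 with hx'
  have hx0 : 0 < x := by positivity
  have hxx' : x ≤ x' := by rw [hx, hx']; nlinarith
  have h1 := cosh_sq w
  have h2 := cosh_sq W
  -- `log (cosh W / cosh w) ≤ (x' - x) / (2 (1 + x))`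
  have hdiff : log (2 * cosh W) - log (2 * cosh w) ≤ (x' - x) / (2 * (1 + x)) := by
    rw [← log_div (by positivity) (by positivity)]
    have e : 2 * cosh W / (2 * cosh w) = cosh W / cosh w := by field_simp
    rw [e]
    have h3 : log (cosh W / cosh w) = log ((cosh W / cosh w) ^ 2) / 2 := by
      rw [log_pow]; push_cast; ring
    rw [h3, div_pow, h1, h2]
    have h4 := log_le_sub_one_of_pos (x := (x' + 1) / (x + 1)) (by positivity)
    have h5 : (x' + 1) / (x + 1) - 1 = (x' - x) / (1 + x) := by field_simp; ring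
    rw [h5] at h4
    have h6 : (x' - x) / (2 * (1 + x)) = (x' - x) / (1 + x) / 2 := by field_simp
    rw [h6]
    linarith
  have hL := log2cosh_gt (w := w)
  have h7 : x * ((x' - x) / (2 * (1 + x))) ≤ (x' - x) * (1 / 2) := by
    have : x * ((x' - x) / (2 * (1 + x))) = (x' - x) * (1 / 2) * (x / (1 + x)) := by field_simp
    rw [this]
    have h8 : x / (1 + x) ≤ 1 := by rw [div_le_one (by positivity)]; linarith
    have h9 : 0 ≤ (x' - x) * (1 / 2) := by nlinarith
    nlinarith
  have h10 : x * (log (2 * cosh W) - log (2 * cosh w)) ≤ x * ((x' - x) / (2 * (1 + x))) :=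
    mul_le_mul_of_nonneg_left hdiff hx0.le
  have h11 : (x' - x) * (1 / 2) ≤ (x' - x) * log (2 * cosh w) :=
    mul_le_mul_of_nonneg_left hL.le (by linarith)
  nlinarith

lemma hasDerivAt_rtF {w : ℝ} (hw : 0 < w) : HasDerivAt rtF (-LF w) w := by
  have hsw : 0 < sinh w := sinh_pos_iff.mpr hw
  have hcw := cosh_pos w
  have h := (hasDerivAt_etaF w).mul ((hasDerivAt_cosh w).div (hasDerivAt_sinh w) hsw.ne')
  have h' : HasDerivAt rtF _ w := h
  convert h' using 1
  unfold LF etaF
  have := cosh_sq w
  simp only [Pi.div_apply]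
  field_simp
  rw [this]
  ring

/-- (K1): the tangent-line bound for `w + κ rt(w)` at its minimum. -/
lemma K1 {w W : ℝ} (hw : 0 < w) (hW : 0 < W) :
    W + rtF W / LF W ≤ w + rtF w / LF W := by
  have hLW : 0 < LF W := by
    have := log2cosh_gt (w := W)
    have hsW : 0 < sinh W := sinh_pos_iff.mpr hW
    unfold LF
    have h1 : 0 < log (2 * cosh W) := by linarith
    positivity
  set H : ℝ → ℝ := fun z => z + rtF z / LF W with hH
  have hd : ∀ z, 0 < z → HasDerivAt H (1 + -LF z / LF W) z := by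
    intro z hz
    exact (hasDerivAt_id z).add ((hasDerivAt_rtF hz).div_const _)
  rcases le_total W w with h | h
  · have hm : MonotoneOn H (Set.Ici W) := by
      apply monotoneOn_of_deriv_nonneg (convex_Ici W)
      · exact fun x hx => (hd x (lt_of_lt_of_le hW hx)).continuousAt.continuousWithinAt
      · intro x hx
        rw [interior_Ici] at hx
        exact (hd x (lt_trans hW hx)).differentiableAt.differentiableWithinAt
      · intro x hx
        rw [interior_Ici] at hx
        have hx' : W < x := hx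
        rw [(hd x (lt_trans hW hx')).deriv]
        have := LF_anti hW hx'.le
        have h2 : LF x / LF W ≤ 1 := by rw [div_le_one hLW]; exact this
        have e : -LF x / LF W = -(LF x / LF W) := by ring
        rw [e]
        linarith
    exact hm (Set.mem_Ici.mpr le_rfl) (Set.mem_Ici.mpr h) h
  · have hm : AntitoneOn H (Set.Ioc 0 W) := by
      apply antitoneOn_of_deriv_nonpos (convex_Ioc 0 W)
      · exact fun x hx => (hd x hx.1).continuousAt.continuousWithinAt
      · intro x hx
        rw [interior_Ioc] at hx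
        exact (hd x hx.1).differentiableAt.differentiableWithinAt
      · intro x hx
        rw [interior_Ioc] at hx
        rw [(hd x hx.1).deriv]
        have := LF_anti hx.1 hx.2.le
        have h2 : 1 ≤ LF x / LF W := by rw [le_div_iff₀ hLW]; linarith
        have e : -LF x / LF W = -(LF x / LF W) := by ring
        rw [e]
        linarith
    exact hm (Set.mem_Ioc.mpr ⟨hw, h⟩) (Set.mem_Ioc.mpr ⟨hW, le_rfl⟩) h

/-! ### Translation to the `hn` coordinates -/

lemma hn_symm (u : ℝ) : hn (1 - u) = hn u := by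
  unfold hn
  rw [sub_sub_cancel]
  ring

/-- The basic dictionary: `X = logit u / 2` has `tanh X = 2u - 1` and `η X = hn u`. -/
lemma dict {u : ℝ} (h0 : 0 < u) (h1 : u < 1) :
    sinh (logit u / 2) / cosh (logit u / 2) = 2 * u - 1 ∧ etaF (logit u / 2) = hn u := by
  have hv : 0 < 1 - u := by linarith
  set p := log u with hp
  set q := log (1 - u) with hq
  set a := exp (p / 2) with ha
  set b := exp (q / 2) with hb
  have ha0 : 0 < a := exp_pos _
  have hb0 : 0 < b := exp_pos _
  have ha2 : a ^ 2 = u := by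
    rw [ha, ← exp_nat_mul]
    norm_num
    rw [show 2 * (p / 2) = p by ring, hp, exp_log h0]
  have hb2 : b ^ 2 = 1 - u := by
    rw [hb, ← exp_nat_mul]
    norm_num
    rw [show 2 * (q / 2) = q by ring, hq, exp_log hv]
  have hX : logit u / 2 = p / 2 - q / 2 := by unfold logit; ring
  have e1 : exp (logit u / 2) = a / b := by rw [hX, exp_sub]
  have e2 : exp (-(logit u / 2)) = b / a := by
    rw [exp_neg, e1, inv_div]
  have hc : cosh (logit u / 2) = 1 / (2 * (a * b)) := by
    rw [cosh_eq, e1, e2]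
    field_simp
    nlinarith
  have hs : sinh (logit u / 2) = (2 * u - 1) / (2 * (a * b)) := by
    rw [sinh_eq, e1, e2]
    field_simp
    nlinarith
  have ht : sinh (logit u / 2) / cosh (logit u / 2) = 2 * u - 1 := by
    rw [hs, hc]
    field_simp
  refine ⟨ht, ?_⟩
  unfold etaF
  rw [ht, hc]
  have hl : log (2 * (1 / (2 * (a * b)))) = -(p / 2) - q / 2 := by
    rw [show 2 * (1 / (2 * (a * b))) = (a * b)⁻¹ by field_simp, log_inv,
      log_mul ha0.ne' hb0.ne', ha, hb, log_exp, log_exp]
    ring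
  rw [hl, hX]
  unfold hn Real.negMulLog
  rw [← hp, ← hq]
  ring

/-- `logit` in terms of the correlation. -/
lemma logit_half {r : ℝ} (h0 : -1 < r) (h1 : r < 1) : logit ((1 + r) / 2) / 2 = Wr r := by
  unfold logit Wr
  have e : 1 - (1 + r) / 2 = (1 - r) / 2 := by ring
  rw [e, log_div (by linarith) (by norm_num), log_div (by linarith) (by norm_num)]
  ring

lemma logit_symm (u : ℝ) : logit (1 - u) = - logit u := by
  unfold logit
  rw [sub_sub_cancel]
  ring

/-- The final form of Lemma K for `u > v`. -/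
lemma lemma_K_aux {r u v : ℝ} (hr0 : 0 < r) (hr1 : r < 1) (hv0 : 0 < v) (hvu : v < u) (hu1 : u < 1) :
    betaR r * (u - v) ≤ kap u v + lamR r * (hn u + hn v) := by
  have hu0 : 0 < u := by linarith
  have hv1 : v < 1 := by linarith
  obtain ⟨tX, eX⟩ := dict hu0 hu1
  obtain ⟨tY, eY⟩ := dict (u := 1 - v) (by linarith) (by linarith)
  rw [logit_symm] at tY eY
  rw [hn_symm] at eY
  set X := logit u / 2 with hX
  set Y := -logit v / 2 with hY
  have hlu : log v < log u := log_lt_log hv0 hvu
  have hlv : log (1 - u) < log (1 - v) := log_lt_log (by linarith) (by linarith)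
  have hXY : 0 < X + Y := by
    rw [hX, hY]; unfold logit; linarith
  set w := (X + Y) / 2 with hw
  have hw0 : 0 < w := by linarith
  have hK2 := K2 hXY
  rw [tX, tY] at hK2
  rw [eX, eY, ← hw] at hK2
  -- the data at `W`
  have hr0' : 0 < (1 + r) / 2 := by linarith
  have hr1' : (1 + r) / 2 < 1 := by linarith
  obtain ⟨tW, eW⟩ := dict hr0' hr1'
  rw [logit_half (by linarith) hr1] at tW eW
  have hW0 : 0 < Wr r := by
    unfold Wr
    have := log_lt_log (x := 1 - r) (y := 1 + r) (by linarith) (by linarith)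
    linarith
  have hetaR : etaF (Wr r) = etaR r := by
    rw [eW]; unfold etaR
    rw [show (1 - r) / 2 = 1 - (1 + r) / 2 by ring, hn_symm]
  set W := Wr r with hWdef
  have hcW := cosh_pos W
  have hsW : 0 < sinh W := sinh_pos_iff.mpr hW0
  have tW' : sinh W / cosh W = r := by rw [tW]; ring
  have hsc : sinh W = r * cosh W := by
    field_simp at tW'
    linarith
  have hcc : cosh W ^ 2 * (1 - r ^ 2) = 1 := by
    have := cosh_sq W
    rw [hsc] at this
    nlinarith
  have hlog : log (2 * cosh W) = CR r := by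
    have : etaF W = log (2 * cosh W) - W * (sinh W / cosh W) := rfl
    rw [hetaR, tW'] at this
    unfold CR
    rw [← hWdef]
    linarith
  have hrr : 0 < 1 - r ^ 2 := by nlinarith
  have hC : 0 < CR r := by
    rw [← hlog]
    have := log2cosh_gt (w := W)
    linarith
  have hLF : LF W = CR r * (1 - r ^ 2) / r ^ 2 := by
    unfold LF
    rw [hlog, hsc]
    have : cosh W ^ 2 ≠ 0 := by positivity
    have e : 1 - r ^ 2 = 1 / cosh W ^ 2 := by field_simp; linarith
    rw [e]
    field_simp
  have hrtW : rtF W = etaR r / r := by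
    unfold rtF
    rw [hetaR, hsc]
    field_simp
  have hlam : 2 * lamR r = 1 / LF W := by
    unfold lamR
    rw [hLF]
    field_simp
  have hbeta : betaR r = W + rtF W / LF W := by
    unfold betaR
    rw [hLF, hrtW, ← hWdef]
    field_simp
  have hK1 := K1 hw0 hW0
  -- assemble
  have hlam0 : 0 ≤ lamR r := by
    unfold lamR
    positivity
  have hkap : kap u v = (u - v) * w := by
    unfold kap
    rw [hw, hX, hY]
    ring
  have huv : 0 < u - v := by linarith
  have hfin := mul_le_mul_of_nonneg_left hK1 huv.le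
  have hK2' := mul_le_mul_of_nonneg_left hK2 hlam0
  rw [hbeta, hkap]
  have e6 : lamR r * (rtF w * (2 * u - 1 + (2 * (1 - v) - 1))) = (u - v) * (rtF w * (2 * lamR r)) := by ring
  have e7 : rtF w / LF W = rtF w * (2 * lamR r) := by rw [hlam]; ring
  rw [e7] at hfin
  rw [e6] at hK2'
  have e8 : rtF W / LF W = rtF W * (2 * lamR r) := by rw [hlam]; ring
  rw [e8] at hfin ⊢
  have e9 : (u - v) * (w + rtF w * (2 * lamR r)) = (u - v) * w + (u - v) * (rtF w * (2 * lamR r)) := by ring
  have e10 : (W + rtF W * (2 * lamR r)) * (u - v) = (u - v) * (W + rtF W * (2 * lamR r)) := by ring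
  rw [e10]
  linarith

lemma hn_nonneg {u : ℝ} (h0 : 0 < u) (h1 : u < 1) : 0 ≤ hn u := by
  unfold hn
  have a := Real.negMulLog_nonneg h0.le h1.le
  have b := Real.negMulLog_nonneg (x := 1 - u) (by linarith) (by linarith)
  linarith

lemma kap_comm (u v : ℝ) : kap u v = kap v u := by
  unfold kap; ring

/-- **Lemma K.** -/
theorem lemma_K {r u v : ℝ} (hr0 : 0 < r) (hr1 : r < 1) (hu0 : 0 < u) (hu1 : u < 1)
    (hv0 : 0 < v) (hv1 : v < 1) :
    betaR r * |u - v| ≤ kap u v + lamR r * (hn u + hn v) := by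
  rcases lt_trichotomy u v with h | h | h
  · rw [abs_sub_comm, abs_of_pos (by linarith : 0 < v - u), kap_comm, add_comm (hn u)]
    exact lemma_K_aux hr0 hr1 hu0 h hv1
  · subst h
    have h1 := hn_nonneg hu0 hu1
    have hrr : 0 < 1 - r ^ 2 := by nlinarith
    have hC : 0 ≤ CR r := by
      unfold CR etaR
      have h2 := hn_nonneg (u := (1 - r) / 2) (by linarith) (by linarith)
      have h3 : 0 < Wr r := by
        unfold Wr
        have := log_lt_log (x := 1 - r) (y := 1 + r) (by linarith) (by linarith)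
        linarith
      positivity
    have hlam0 : 0 ≤ lamR r := by
      unfold lamR
      positivity
    simp only [sub_self, abs_zero, mul_zero]
    unfold kap
    simp only [sub_self, zero_mul, zero_div, zero_add]
    positivity
  · rw [abs_of_pos (by linarith : 0 < u - v)]
    exact lemma_K_aux hr0 hr1 hv0 h hu1

end Vale.Agent.Lib.P322x
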