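import Vale.Agent.Lib.P322x.Bridge58

/-! The family of lines by induction on the dimension from the two-point inequality `Bellman`. -/

set_option linter.unusedVariables false
set_option linter.unusedSectionVars false

namespace Vale.Agent.Lib.P322x

open Finset Vale.Agent.Lib.P311 Vale.Agent.Lib.P322

/-- Tangent line of `Psi`. -/
lemma Psi_tangent {t s : ℝ} (ht : |t| < 1) (hs : |s| < 1) :
    Psi s + psi s * (t - s) ≤ Psi t := by
  have ht1 := abs_lt.mp ht
  have hs1 := abs_lt.mp hs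
  have h1 : 0 < 1 + t := by linarith
  have h2 : 0 < 1 - t := by linarith
  have h3 : 0 < 1 + s := by linarith
  have h4 : 0 < 1 - s := by linarith
  -- `x log (x / y) ≥ x - y`
  have key : ∀ x y : ℝ, 0 < x → 0 < y → x - y ≤ x * (Real.log x - Real.log y) := by
    intro x y hx hy
    have := klt_tangent (u := x) (v := y) (U := y) (V := y) hx hy hy hy
    unfold klt at this
    have e : y / y = 1 := div_self hy.ne'
    rw [e] at this
    simpa using this
  have k1 := key _ _ h1 h3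
  have k2 := key _ _ h2 h4
  unfold Psi psi
  nlinarith

/-- Jensen: the mean deficit is at most the deficit of the mean. -/
lemma mean_dfc_le {n : ℕ} {g : (Fin n → Bool) → ℝ} (hg : ∀ x, |g x| < 1) :
    mean (fun x => dfc (g x)) ≤ dfc (mean g) := by
  have hm := mean_abs_lt hg
  have h : ∀ x, dfc (g x) ≤ dfc (mean g) - psi (mean g) * (g x - mean g) := by
    intro x
    have := Psi_tangent (hg x) hm
    unfold dfc
    linarith
  have h2 := mean_le_mean h
  have e : mean (fun x => dfc (mean g) - psi (mean g) * (g x - mean g)) = dfc (mean g) := by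
    have e1 : ∀ x, dfc (mean g) - psi (mean g) * (g x - mean g)
        = (dfc (mean g) + psi (mean g) * mean g) + (-(psi (mean g))) * g x := fun x => by ring
    rw [mean_congr e1, mean_add, mean_const, mean_mul_left]
    ring
  rw [e] at h2
  exact h2

/-- The deficit is positive inside the interval. -/
lemma dfc_pos {t : ℝ} (h : |t| < 1) : 0 < dfc t := by
  have h1 := abs_lt.mp h
  have e : dfc t = hn ((1 + t) / 2) := (hn_half_add h1.1 h1.2).symm
  rw [e]
  unfold hn
  have h2 : 0 < (1 + t) / 2 := by linarith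
  have h3 : (1 + t) / 2 < 1 := by linarith
  have h4 : 0 < 1 - (1 + t) / 2 := by linarith
  have h5 : 1 - (1 + t) / 2 < 1 := by linarith
  have key : ∀ x : ℝ, 0 < x → x < 1 → 0 < Real.negMulLog x := by
    intro x h0 h1
    unfold Real.negMulLog
    have := Real.log_neg h0 h1
    nlinarith
  have := key _ h2 h3
  have := key _ h4 h5
  linarith

/-- `Psi` by the first five terms of the series, below. -/
lemma Psi_ge_five {t : ℝ} (h : |t| ≤ 1) : t ^ 2 / 2 + t ^ 4 / 12 + t ^ 6 / 30 ≤ Psi t := by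
  have hs := hasSum_Psi h
  have := sum_le_hasSum (Finset.range 3) (fun k _ => by
    have h2 : 0 ≤ t ^ (2 * k + 2) := by
      have : t ^ (2 * k + 2) = (t ^ (k + 1)) ^ 2 := by ring
      rw [this]; positivity
    exact mul_nonneg (ee_nonneg k) h2) hs
  simp only [Finset.sum_range_succ, Finset.sum_range_zero, ee] at this
  norm_num at this
  linarith

/-- Comparison of `Psi` with the weight `xiG`: `log 2 * xiG c ≤ dfc c`. -/
lemma log_two_mul_xi_le {c : ℝ} (h : |c| ≤ 1) : Real.log 2 * xiG c ≤ dfc c := by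
  have hc : 0 ≤ c ^ 2 := sq_nonneg c
  have hc1 : c ^ 2 ≤ 1 := by
    have := abs_le.mp h
    nlinarith
  set u := c ^ 2 with hu
  have hs1 := hasSum_ee.mul_right u
  have hs2 := hasSum_Psi h
  have hs := hs1.sub hs2
  have hterm : ∀ k : ℕ, 0 ≤ ee k * u - ee k * c ^ (2 * k + 2) := by
    intro k
    have h3 : c ^ (2 * k + 2) = u ^ (k + 1) := by
      rw [hu]; ring
    rw [h3, ← mul_sub]
    apply mul_nonneg (ee_nonneg k)
    have : u ^ (k + 1) ≤ u ^ 1 := pow_le_pow_of_le_one hc hc1 (by omega)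
    simpa using this
  have hsum := sum_le_hasSum (Finset.range 5) (fun k _ => hterm k) hs
  have e3 : ∀ k : ℕ, c ^ (2 * k + 2) = u ^ (k + 1) := fun k => by rw [hu]; ring
  simp only [Finset.sum_range_succ, Finset.sum_range_zero, ee, e3] at hsum
  norm_num at hsum
  unfold dfc xiG
  have e4 : c ^ 4 = u ^ 2 := by rw [hu]; ring
  rw [e4, ← hu]
  have hl : Real.log 2 ≤ 0.6931471808 := Real.log_two_lt_d9.le
  have hl0 : 0.6931471803 ≤ Real.log 2 := Real.log_two_gt_d9.le
  have hB : 0 ≤ 1 / 12 + 1 / 30 * (1 + u) + 1 / 56 * (1 + u + u ^ 2) + 1 / 90 * (1 + u + u ^ 2 + u ^ 3)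
      - 0.208 * u := by
    have h3 : 0 ≤ u ^ 3 := by positivity
    nlinarith [sq_nonneg (u - 1), sq_nonneg u]
  have hU : 0 ≤ u * (1 - u) := mul_nonneg hc (by linarith)
  have hS := mul_nonneg hU hB
  have hU2 : 0 ≤ u ^ 2 * (1 - u) := mul_nonneg (sq_nonneg u) (by linarith)
  have hL2 : Real.log 2 * (u ^ 2 * (1 - u)) ≤ 0.6931471808 * (u ^ 2 * (1 - u)) :=
    mul_le_mul_of_nonneg_right hl hU2
  nlinarith

/-- `(1 - r²) psi(r)² ≤ 0.5414` on `(0, 1)`. -/
lemma k_le {r : ℝ} (h0 : 0 < r) (h1 : r < 1) : (1 - r ^ 2) * psi r ^ 2 ≤ 0.5414 := by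
  -- with `v = (1 + r) / (1 - r)`: `psi = (log v) / 2`, `1 - r^2 = 4 v / (1 + v)^2 ≤ 4 / v`
  set v := (1 + r) / (1 - r) with hv
  have hm : 0 < 1 - r := by linarith
  have hp : 0 < 1 + r := by linarith
  have hvpos : 0 < v := div_pos hp hm
  have hv1 : 1 < v := by rw [hv, lt_div_iff₀ hm]; linarith
  have hpsi : psi r = Real.log v / 2 := by
    unfold psi
    rw [hv, Real.log_div hp.ne' hm.ne']
  have hsq : (1 - r ^ 2) * v ≤ 4 := by
    have : (1 - r ^ 2) * v = (1 + r) ^ 2 := by
      rw [hv]; field_simp; ring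
    rw [this]; nlinarith
  -- `log v ≤ (2 / e) sqrt v`
  set y := Real.sqrt v with hy
  have hypos : 0 < y := Real.sqrt_pos.mpr hvpos
  have hy2 : y ^ 2 = v := Real.sq_sqrt hvpos.le
  have hlogy : Real.log v = 2 * Real.log y := by
    rw [← hy2, Real.log_pow]; norm_num
  have he : Real.log y ≤ y / Real.exp 1 := by
    have hp2 : 0 < y / Real.exp 1 := by positivity
    have := Real.log_le_sub_one_of_pos hp2
    rw [Real.log_div hypos.ne' (Real.exp_pos 1).ne', Real.log_exp] at this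
    linarith
  have hlogy0 : 0 < Real.log y := by
    have : 1 < y := by
      by_contra hh
      push Not at hh
      nlinarith
    exact Real.log_pos this
  have hee : (2.7182 : ℝ) < Real.exp 1 := by linarith [Real.exp_one_gt_d9]
  have hyle : y / Real.exp 1 ≤ y / 2.7182 :=
    div_le_div_of_nonneg_left hypos.le (by norm_num) hee.le
  have hlog2 : Real.log y ^ 2 ≤ (y / 2.7182) ^ 2 := by
    apply pow_le_pow_left₀ hlogy0.le
    linarith
  have hps2 : psi r ^ 2 ≤ v / 2.7182 ^ 2 := by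
    rw [hpsi, hlogy]
    have e1 : (2 * Real.log y / 2) ^ 2 = Real.log y ^ 2 := by ring
    rw [e1]
    calc Real.log y ^ 2 ≤ (y / 2.7182) ^ 2 := hlog2
      _ = v / 2.7182 ^ 2 := by rw [div_pow, hy2]
  have hr2 : 0 ≤ 1 - r ^ 2 := by nlinarith
  calc (1 - r ^ 2) * psi r ^ 2 ≤ (1 - r ^ 2) * (v / 2.7182 ^ 2) :=
        mul_le_mul_of_nonneg_left hps2 hr2
    _ = ((1 - r ^ 2) * v) / 2.7182 ^ 2 := by ring
    _ ≤ 4 / 2.7182 ^ 2 := by
        apply div_le_div_of_nonneg_right hsq (by norm_num)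
    _ ≤ 0.5414 := by norm_num

/-- The base case of the lines: they vanish on constants. -/
lemma base_line {r c : ℝ} (hr0 : rho1 ≤ r) (hr1 : r < 1) (hc : |c| < 1) :
    AR r * xiG c ≤ bR r * dfc c := by
  have hr : 191 / 200 ≤ r := hr0
  have hr00 : 0 < r := by linarith
  have hb := bR_pos hr00 hr1
  have hW := Wr_pos hr00 hr1
  have h2 : 0 < 1 - r ^ 2 := by nlinarith
  rw [AR_eq hr00 hr1]
  have hW' : 0 < psi r := hW
  -- `r psi r ≤ b * (1 - r²) psi²`
  have h3 : r * psi r ≤ bR r * ((1 - r ^ 2) * psi r ^ 2) := by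
    unfold bR
    rw [Wr_eq_psi]
    have : (1 + r / ((1 - r ^ 2) * psi r)) * ((1 - r ^ 2) * psi r ^ 2)
        = (1 - r ^ 2) * psi r ^ 2 + r * psi r := by
      field_simp
    rw [this]
    have : 0 ≤ (1 - r ^ 2) * psi r ^ 2 := by positivity
    linarith
  have hk := k_le hr00 hr1
  have hd : dfc r ≤ 0.1426 := by
    unfold dfc
    have hP := Psi_ge_five (t := r) (by rw [abs_of_pos hr00]; exact hr1.le)
    have hl := Real.log_two_lt_d9
    have hrr : (191 / 200 : ℝ) ^ 2 ≤ r ^ 2 := pow_le_pow_left₀ (by norm_num) hr 2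
    have hr4 : (191 / 200 : ℝ) ^ 4 ≤ r ^ 4 := pow_le_pow_left₀ (by norm_num) hr 4
    have hr6 : (191 / 200 : ℝ) ^ 6 ≤ r ^ 6 := pow_le_pow_left₀ (by norm_num) hr 6
    norm_num at hrr hr4 hr6 hl ⊢
    linarith
  have hl0 : 0.6931471803 ≤ Real.log 2 := Real.log_two_gt_d9.le
  have hsum : r * psi r + bR r * dfc r ≤ bR r * Real.log 2 := by
    have : bR r * ((1 - r ^ 2) * psi r ^ 2) + bR r * dfc r ≤ bR r * Real.log 2 := by
      rw [← mul_add]
      apply mul_le_mul_of_nonneg_left _ hb.le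
      norm_num at hl0 hk hd ⊢
      linarith
    linarith
  have hxi0 : 0 ≤ xiG c := by
    unfold xiG
    have : c ^ 2 ≤ 1 := by
      have := abs_lt.mp hc
      nlinarith
    have h4 : 0 ≤ c ^ 4 := by positivity
    apply mul_nonneg <;> linarith
  have h5 := log_two_mul_xi_le (c := c) hc.le
  calc (r * psi r + bR r * dfc r) * xiG c ≤ (bR r * Real.log 2) * xiG c :=
        mul_le_mul_of_nonneg_right hsum hxi0
    _ = bR r * (Real.log 2 * xiG c) := by ring
    _ ≤ bR r * dfc c := mul_le_mul_of_nonneg_left h5 hb.le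

/-- Lemma K: the pointwise bound for the edge energy. -/
def LemmaK : Prop :=
  ∀ r u v : ℝ, 0 < r → r < 1 → 0 < u → u < 1 → 0 < v → v < 1 →
    betaR r * |u - v| ≤ kap u v + lamR r * (hn u + hn v)

/-- The two-point modified logarithmic Sobolev inequality. -/
def MlsiTwo : Prop :=
  ∀ s t : ℝ, |s| < 1 → |t| < 1 → 2 * dfc ((s + t) / 2) - dfc s - dfc t ≤ cst s t

lemma betaR_nonneg {r : ℝ} (h0 : 0 < r) (h1 : r < 1) : 0 ≤ betaR r := by
  unfold betaR
  have hW := Wr_pos h0 h1
  have he : 0 ≤ etaR r := by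
    rw [etaR_eq (by linarith) h1]
    exact dfc_nonneg (by rw [abs_of_pos h0]; exact h1.le)
  have h2 : 0 < 1 - r ^ 2 := by nlinarith
  have hC : 0 < CR r := by
    unfold CR
    have := mul_pos h0 hW
    linarith
  positivity

lemma abs_mean_le {n : ℕ} (u : (Fin n → Bool) → ℝ) : |mean u| ≤ mean (fun x => |u x|) := by
  unfold mean
  rw [abs_div, abs_of_pos (by positivity : (0 : ℝ) < 2 ^ n)]
  exact div_le_div_of_nonneg_right (Finset.abs_sum_le_sum_abs _ _) (by positivity)

/-- The two invariants of the induction. -/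
def Inv (m d E : ℝ) : Prop :=
  2 * (dfc m - d) ≤ E ∧ ∀ r, rho1 ≤ r → r < 1 → AR r * xiG m - bR r * d ≤ E

theorem inv_all (hK : LemmaK) (hM : MlsiTwo) (hB : Bellman) (n : ℕ) (g : (Fin n → Bool) → ℝ)
    (hg : ∀ x, |g x| < 1) : Inv (mean g) (mean fun x => dfc (g x)) (energy g) := by
  refine two_point_induction Inv ?_ ?_ n g hg
  · intro c hc
    refine ⟨by simp, fun r h0 h1 => ?_⟩
    have := base_line h0 h1 hc
    linarith
  · intro n g₀ g₁ h₀ h₁ E₀ E₁ hE₀ hE₁
    have hm₀ := mean_abs_lt h₀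
    have hm₁ := mean_abs_lt h₁
    have hm₀' := abs_lt.mp hm₀
    have hm₁' := abs_lt.mp hm₁
    have hJ := cst_mean_le h₀ h₁
    set m₀ := mean g₀ with hm₀d
    set m₁ := mean g₁ with hm₁d
    set d₀ := mean (fun x => dfc (g₀ x)) with hd₀
    set d₁ := mean (fun x => dfc (g₁ x)) with hd₁
    set K := mean (fun x => cst (g₀ x) (g₁ x)) with hKd
    have hd₀pos : 0 < d₀ := mean_pos fun x => dfc_pos (h₀ x)
    have hd₁pos : 0 < d₁ := mean_pos fun x => dfc_pos (h₁ x)
    have hd₀le : d₀ ≤ dfc m₀ := mean_dfc_le h₀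
    have hd₁le : d₁ ≤ dfc m₁ := mean_dfc_le h₁
    constructor
    · have := hM m₀ m₁ hm₀ hm₁
      have h1 := hE₀.1
      have h2 := hE₁.1
      linarith
    · intro r hr0 hr1
      have hr00 : 0 < r := lt_of_lt_of_le rho1_pos hr0
      have ea₀ : hn ((1 + m₀) / 2) = dfc m₀ := hn_half_add hm₀'.1 hm₀'.2
      have ea₁ : hn ((1 + m₁) / 2) = dfc m₁ := hn_half_add hm₁'.1 hm₁'.2
      have e2 : ∀ m : ℝ, 2 * ((1 + m) / 2) - 1 = m := fun m => by ring
      have hb := hB r hr0 hr1 ((1 + m₀) / 2) ((1 + m₁) / 2) d₀ d₁ E₀ E₁ K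
        (by linarith) (by linarith) (by linarith) (by linarith)
        hd₀pos (by rw [ea₀]; exact hd₀le) hd₁pos (by rw [ea₁]; exact hd₁le)
        (by rw [ea₀]; exact hE₀.1) (by rw [ea₁]; exact hE₁.1)
        (fun r' h0' h1' => by rw [e2]; exact hE₀.2 r' h0' h1')
        (fun r' h0' h1' => by rw [e2]; exact hE₁.2 r' h0' h1')
        (by rw [kap_half_add hm₀ hm₁]; exact hJ)
        (fun r' h0' h1' => by
          have hp : ∀ x, betaR r' * |(1 + g₀ x) / 2 - (1 + g₁ x) / 2|
              ≤ cst (g₀ x) (g₁ x) + lamR r' * (dfc (g₀ x) + dfc (g₁ x)) := by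
            intro x
            have hx₀ := abs_lt.mp (h₀ x)
            have hx₁ := abs_lt.mp (h₁ x)
            have := hK r' ((1 + g₀ x) / 2) ((1 + g₁ x) / 2) h0' h1'
              (by linarith) (by linarith) (by linarith) (by linarith)
            rw [kap_half_add (h₀ x) (h₁ x), hn_half_add hx₀.1 hx₀.2, hn_half_add hx₁.1 hx₁.2] at this
            exact this
          have hmean := mean_le_mean hp
          rw [mean_mul_left] at hmean
          have e3 : mean (fun x => cst (g₀ x) (g₁ x) + lamR r' * (dfc (g₀ x) + dfc (g₁ x)))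
              = K + lamR r' * (d₀ + d₁) := by
            rw [mean_add, mean_mul_left, mean_add]
          rw [e3] at hmean
          have e4 : (1 + m₀) / 2 - (1 + m₁) / 2
              = mean (fun x => (1 + g₀ x) / 2 - (1 + g₁ x) / 2) := by
            have : ∀ x, (1 + g₀ x) / 2 - (1 + g₁ x) / 2
                = (1 / 2 : ℝ) * g₀ x + (-(1 / 2 : ℝ)) * g₁ x := fun x => by ring
            rw [mean_congr this, mean_add, mean_mul_left, mean_mul_left]
            ring
          have h5 := abs_mean_le (fun x => (1 + g₀ x) / 2 - (1 + g₁ x) / 2)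
          rw [← e4] at h5
          have h6 := mul_le_mul_of_nonneg_left h5 (betaR_nonneg h0' h1')
          linarith)
      have e5 : (1 + m₀) / 2 + (1 + m₁) / 2 - 1 = (m₀ + m₁) / 2 := by ring
      rw [e5] at hb
      exact hb

/-- The family of lines from the two-point inequality. -/
theorem lines_of_bellman (hK : LemmaK) (hM : MlsiTwo) (hB : Bellman) (ρ : ℝ) (h0 : rho1 ≤ ρ)
    (h1 : ρ < 1) : LineAt ρ := by
  intro n a ha
  have := (inv_all hK hM hB n (sgn a) (abs_sgn ha)).2 ρ h0 h1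
  rw [mean_sgn, ← eH_eq ha, ← fI_eq ha] at this
  exact this

/-- The Courtade-Kumar inequality from the two-point inequality. -/
theorem ck_of_bellman (hK : LemmaK) (hM : MlsiTwo) (hB : Bellman) {n : ℕ}
    (f : (Fin n → Bool) → Bool) {ε : ℝ} (h0 : 0 ≤ ε) (h1 : ε ≤ 1 / 2) :
    mutualInfo f ε ≤ 1 - h2 ε :=
  ck_of_lines (lines_of_bellman hK hM hB) f h0 h1

end Vale.Agent.Lib.P322x
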