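import Vale.Agent.Lib.P322x.Lines
import Vale.Agent.Lib.P322x.LemmaK
import Vale.Agent.Lib.P322x.Edge

/-! The full inequality from the single two-point inequality `Bellman`. -/

set_option linter.unusedVariables false

namespace Vale.Agent.Lib.P322x

open Vale.Agent.Lib.P322

lemma lemmaK_holds : LemmaK := fun r u v h0 h1 hu0 hu1 hv0 hv1 => lemma_K h0 h1 hu0 hu1 hv0 hv1

lemma mlsiTwo_holds : MlsiTwo := by
  intro s t hs ht
  have hs1 := abs_lt.mp hs
  have ht1 := abs_lt.mp ht
  have h := mlsi_two_point (u := (1 + s) / 2) (v := (1 + t) / 2) (by linarith) (by linarith)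
    (by linarith) (by linarith)
  rw [kap_half_add hs ht] at h
  have e : ((1 + s) / 2 + (1 + t) / 2) / 2 = (1 + (s + t) / 2) / 2 := by ring
  rw [e, hn_half_add (by linarith) (by linarith), hn_half_add hs1.1 hs1.2,
    hn_half_add ht1.1 ht1.2] at h
  linarith

/-- The Courtade-Kumar inequality, for every Boolean function and every crossover probability,
from the two-point inequality. -/
theorem ck_of_bellman_only (hB : Bellman) {n : ℕ} (f : (Fin n → Bool) → Bool) {ε : ℝ}
    (h0 : 0 ≤ ε) (h1 : ε ≤ 1 / 2) : mutualInfo f ε ≤ 1 - h2 ε :=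
  ck_of_bellman lemmaK_holds mlsiTwo_holds hB f h0 h1

end Vale.Agent.Lib.P322x
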